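import Mathlib

/-!
# P112, chapter (T): trees, antichains, forests. Definitions and exact statements

One band (`w = 1`), lengths `2 ^ (-j)`, slopes arbitrary. Points `z` carry the slope `u z`.
Only measurability and (unspecified) boundedness of `u` are used in this chapter.
-/

open MeasureTheory Set
open scoped ContDiff

set_option linter.dupNamespace false

namespace Vale.Agent.P112.T

/-- Kernel data: `K` odd, smooth, supported in `[-1/8, 1/8]`; `Φ` smooth, supported in `[-1, 1]`.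
The band function is `ψ = Φ^(M)`. -/
structure Ker (M : ℕ) where
  K : ℝ → ℝ
  Φ : ℝ → ℝ
  smoothK : ContDiff ℝ ∞ K
  oddK : ∀ t, K (-t) = -K t
  suppK : ∀ t, 1 / 8 ≤ |t| → K t = 0
  smoothΦ : ContDiff ℝ ∞ Φ
  suppΦ : ∀ t, 1 ≤ |t| → Φ t = 0

variable {M : ℕ}

/-- The band function. -/
noncomputable def Ker.psi (κ : Ker M) : ℝ → ℝ := iteratedDeriv M κ.Φ

/-- The kernel `k_j(z; ζ)`, the slope at `z` given as a number `v`. -/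
noncomputable def Ker.k (κ : Ker M) (j : ℕ) (v : ℝ) (z ζ : ℝ × ℝ) : ℝ :=
  2 ^ j * κ.K (2 ^ j * (z.1 - ζ.1)) * κ.psi (z.2 - ζ.2 - (z.1 - ζ.1) * v)

/-- The single scale operator `T_j`. -/
noncomputable def Ker.T (κ : Ker M) (u : ℝ × ℝ → ℝ) (j : ℕ) (f : ℝ × ℝ → ℝ) (z : ℝ × ℝ) : ℝ :=
  ∫ ζ, κ.k j (u z) z ζ * f ζ

/-- Its adjoint `S_j`. -/
noncomputable def Ker.S (κ : Ker M) (u : ℝ × ℝ → ℝ) (j : ℕ) (g : ℝ × ℝ → ℝ) (ζ : ℝ × ℝ) : ℝ :=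
  ∫ z, κ.k j (u z) z ζ * g z

/-- Test functions: measurable, bounded, bounded support. -/
structure Nice (g : ℝ × ℝ → ℝ) : Prop where
  meas : Measurable g
  bdd : ∃ C, ∀ z, |g z| ≤ C
  supp : ∃ r, ∀ z : ℝ × ℝ, r ≤ |z.1| ∨ r ≤ |z.2| → g z = 0

/-- Slope fields: measurable and bounded (the bound never enters a constant). -/
structure Field (u : ℝ × ℝ → ℝ) : Prop where
  meas : Measurable u
  bdd : ∃ U, ∀ z, |u z| ≤ U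

/-- The cell of level `i` of the dyadic grid shifted by `τ`. -/
noncomputable def q (τ : ℝ) (i : ℕ) (x : ℝ) : ℤ := ⌊2 ^ i * (x - τ)⌋

/-- The interaction kernel of two points. -/
noncomputable def Ker.kap (κ : Ker M) (j j' : ℕ) (v v' : ℝ) (z z' : ℝ × ℝ) : ℝ :=
  ∫ ζ, κ.k j v z ζ * κ.k j' v' z' ζ

/-- `S_0 (g 1_{E_0}) + ... + S_{n-1} (g 1_{E_{n-1}})`. -/
noncomputable def Ker.FS (κ : Ker M) (u : ℝ × ℝ → ℝ) (g : ℝ × ℝ → ℝ) (E : ℕ → Set (ℝ × ℝ))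
    (n : ℕ) (ζ : ℝ × ℝ) : ℝ :=
  ∑ j ∈ Finset.range n, κ.S u j ((E j).indicator g) ζ

/-- The union of the first `n` sets. -/
def Un (E : ℕ → Set (ℝ × ℝ)) (n : ℕ) : Set (ℝ × ℝ) := {z | ∃ j < n, z ∈ E j}

/-- Tube average of slope `s`, length `2 ^ (-j)`, width `1` (up to the factor `B`). -/
noncomputable def Av (s B : ℝ) (j : ℕ) (h : ℝ × ℝ → ℝ) (ζ : ℝ × ℝ) : ℝ :=
  2 ^ j * ∫ z in {z : ℝ × ℝ | |z.1 - ζ.1| ≤ B / 2 ^ j ∧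
    |(z.2 - s * z.1) - (ζ.2 - s * ζ.1)| ≤ B}, h z

/-! ### T1: tile-tile -/

/-- T1. Theorem to prove: `∀ M (κ : Ker M), StT1 κ`. -/
def StT1 (κ : Ker M) : Prop := ∃ C : ℝ, 0 < C ∧
  (∀ j j' : ℕ, j' ≤ j → ∀ (v v' : ℝ) (z z' : ℝ × ℝ),
    |κ.kap j j' v v' z z'| ≤ C * 2 ^ j' / (1 + |v - v'| / 2 ^ j) ^ M ∧
    (κ.kap j j' v v' z z' ≠ 0 → |z.1 - z'.1| ≤ 1 / 2 ^ j' ∧
      |z.2 - z'.2 - (z.1 - z'.1) * v'| ≤ 2 + |v - v'| / 2 ^ j)) ∧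
  (∀ u : ℝ × ℝ → ℝ, Field u → ∀ (j j' : ℕ) (g g' : ℝ × ℝ → ℝ), Nice g → Nice g' →
    ∫ ζ, κ.S u j g ζ * κ.S u j' g' ζ = ∫ z, ∫ z', g z * g' z' * κ.kap j j' (u z) (u z') z z')

/-! ### T2: a single tree -/

/-- T2. Theorem to prove: `∀ M (κ : Ker M) (A : ℝ), 1 ≤ A → StT2 κ A`. -/
def StT2 (κ : Ker M) (A : ℝ) : Prop := ∃ C : ℝ, 0 < C ∧
  ∀ (τ : ℝ) (u : ℝ × ℝ → ℝ), Field u → ∀ (n : ℕ) (E : ℕ → Set (ℝ × ℝ)),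
    (∀ j, MeasurableSet (E j)) → ∀ s : ℝ,
    (∀ j < n, ∀ z ∈ E j, |u z - s| ≤ A * 2 ^ j) →
    (∀ z, ∀ i j k : ℕ, i ≤ j → j ≤ k → k < n → z ∈ E i → z ∈ E k → z ∈ E j) →
    ∀ δ : ℝ, 0 < δ →
    (∀ j1 < n, ∀ z1 ∈ E j1, ∀ i ≤ j1,
      volume {z : ℝ × ℝ | z ∈ Un E n ∧ q τ i z.1 = q τ i z1.1 ∧
        |(z.2 - s * z.1) - (z1.2 - s * z1.1)| ≤ 1 ∧ |u z - s| ≤ 2 * A * 2 ^ i} ≤
        ENNReal.ofReal (δ / 2 ^ i)) →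
    ∀ g : ℝ × ℝ → ℝ, Nice g →
      ∫ ζ, (κ.FS u g E n ζ) ^ 2 ≤ C * δ * ∫ z in Un E n, g z ^ 2

/-! ### T3: antichains -/

/-- The density hypothesis (nested form: free slope `θ` and free line near `z1`). -/
def Dens (u : ℝ × ℝ → ℝ) (E : ℕ → Set (ℝ × ℝ)) (n : ℕ) (τ : ℝ) (a : ℕ) (δ : ℝ) : Prop :=
  ∀ j1 < n, ∀ z1 ∈ E j1, ∀ lam : ℝ, 1 ≤ lam → ∀ θ c : ℝ, |θ - u z1| ≤ lam * 2 ^ j1 →
    |z1.2 - c - θ * z1.1| ≤ lam → ∀ i ≤ j1,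
    volume {z : ℝ × ℝ | z ∈ Un E n ∧ q τ i z.1 = q τ i z1.1 ∧
      |z.2 - c - θ * z.1| ≤ lam ∧ |u z - θ| ≤ lam * 2 ^ i} ≤
      ENNReal.ofReal (lam ^ a * δ / 2 ^ i)

/-- T3. Theorem to prove: `∀ M (κ : Ker M) a, a + 2 ≤ M → StT3 κ a`. -/
def StT3 (κ : Ker M) (a : ℕ) : Prop := ∃ C : ℝ, 0 < C ∧
  ∀ (τ : ℝ) (u : ℝ × ℝ → ℝ), Field u → ∀ (n : ℕ) (E : ℕ → Set (ℝ × ℝ)),
    (∀ j, MeasurableSet (E j)) → (∀ i j : ℕ, i ≠ j → Disjoint (E i) (E j)) →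
    ∀ δ : ℝ, 0 < δ → Dens u E n τ a δ →
    ∀ g : ℝ × ℝ → ℝ, Nice g → (∀ z, |g z| ≤ 1) →
      ∫ ζ, (κ.FS u g E n ζ) ^ 2 ≤ C * δ * ∫ z in Un E n, |g z|

/-! ### T4: forests -/

/-- T4(a), adjoint Cotlar inequality: `F_{≤ j}` in terms of the whole tree sum.
Theorem to prove: `∀ M (κ : Ker M) A, 1 ≤ A → StT4a κ A`. -/
def StT4a (κ : Ker M) (A : ℝ) : Prop := ∃ C B : ℝ, 0 < C ∧ 1 ≤ B ∧
  ∀ (u : ℝ × ℝ → ℝ), Field u → ∀ (n : ℕ) (E : ℕ → Set (ℝ × ℝ)),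
    (∀ j, MeasurableSet (E j)) → ∀ s : ℝ,
    (∀ j < n, ∀ z ∈ E j, |u z - s| ≤ A * 2 ^ j) →
    ∀ g : ℝ × ℝ → ℝ, Nice g → ∀ j < n, ∀ ζ : ℝ × ℝ,
      |κ.FS u g E (j + 1) ζ| ≤ C * (Av s B j (fun z => |κ.FS u g E n z|) ζ +
        Av s B j ((Un E n).indicator fun z => |g z|) ζ +
        ∑ i ∈ Finset.range (j + 1), 2 ^ i / 2 ^ j * Av s B i ((E i).indicator fun z => |g z|) ζ)

/-- T4(b), integration by parts. `v` is the slope of a point of another tree.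
Theorem to prove: `∀ M (κ : Ker M) A, 2 ≤ M → 1 ≤ A → StT4b κ A`. -/
def StT4b (κ : Ker M) (A : ℝ) : Prop := ∃ C B : ℝ, 0 < C ∧ 1 ≤ B ∧
  ∀ (u : ℝ × ℝ → ℝ), Field u → ∀ (n : ℕ) (E : ℕ → Set (ℝ × ℝ)),
    (∀ j, MeasurableSet (E j)) → ∀ s : ℝ,
    (∀ j < n, ∀ z ∈ E j, |u z - s| ≤ A * 2 ^ j) →
    ∀ g : ℝ × ℝ → ℝ, Nice g → ∀ j < n, ∀ m ≤ j + 1, ∀ (v : ℝ) (z : ℝ × ℝ), 2 ^ j ≤ |v - s| →
      |∫ ζ, κ.k j v z ζ * κ.FS u g E m ζ| ≤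
        C * (2 ^ j / |v - s|) ^ 2 * Av v 2 j (fun ζ => |κ.FS u g E m ζ| +
          ∑ i ∈ Finset.range m,
            2 ^ i / 2 ^ j * Av s B i ((E i).indicator fun z => |g z|) ζ) z

/-- The top tube of a tree: level `lev`, cell `m`, line `y = c + s x`, half width `B`. -/
def Top (τ : ℝ) (lev : ℕ) (m : ℤ) (s c B : ℝ) : Set (ℝ × ℝ) :=
  {z | q τ lev z.1 = m ∧ |z.2 - c - s * z.1| ≤ B}

/-- A separated forest. -/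
structure Forest {ι : Type} (u : ℝ × ℝ → ℝ) (τ A B Q : ℝ) (n : ℕ) (s c : ι → ℝ) (lev : ι → ℕ)
    (m : ι → ℤ) (E : ι → ℕ → Set (ℝ × ℝ)) : Prop where
  meas : ∀ i j, MeasurableSet (E i j)
  slope : ∀ i, ∀ j < n, ∀ z ∈ E i j, |u z - s i| ≤ A * 2 ^ j
  scale : ∀ i, ∀ j < n, ∀ z ∈ E i j, lev i ≤ j
  line : ∀ i, ∀ j < n, ∀ z ∈ E i j, |z.2 - c i - s i * z.1| ≤ A
  inside : ∀ i, ∀ j < n, ∀ z ∈ E i j, ∀ x : ℝ, |x - z.1| ≤ 1 / (8 * 2 ^ j) → q τ (lev i) x = m i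
  conv : ∀ i, ∀ z, ∀ j k l : ℕ, j ≤ k → k ≤ l → l < n → z ∈ E i j → z ∈ E i l → z ∈ E i k
  disj : ∀ i i', i ≠ i' → ∀ j, Disjoint (E i j) (E i' j)
  sep : ∀ i i', i ≠ i' → ∀ j < n, lev i' ≤ j → ∀ z ∈ E i j,
    (∃ ζ ∈ Top τ (lev i') (m i') (s i') (c i') B, |ζ.1 - z.1| ≤ 1 / (8 * 2 ^ j) ∧
      |ζ.2 - z.2 - (ζ.1 - z.1) * u z| ≤ 1) → Q * 2 ^ j ≤ |u z - s i'|

/-- T4. Theorem to prove: `∀ M (κ : Ker M) A, 2 ≤ M → 1 ≤ A → ∃ B, StT4 κ A B`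
(any larger `B` works too). -/
def StT4 (κ : Ker M) (A B : ℝ) : Prop := ∃ C : ℝ, 0 < C ∧
  ∀ (τ : ℝ) (u : ℝ × ℝ → ℝ), Field u → ∀ (n : ℕ) (ι : Type) [Fintype ι] (s c : ι → ℝ)
    (lev : ι → ℕ) (m : ι → ℤ) (E : ι → ℕ → Set (ℝ × ℝ)) (Q : ℝ), 1 ≤ Q →
    Forest u τ A B Q n s c lev m E →
    ∀ g : ℝ × ℝ → ℝ, Nice g → (∀ z, |g z| ≤ 1) →
      ∫ ζ, (∑ i, κ.FS u g (E i) n ζ) ^ 2 ≤
        (∑ i, ∫ ζ, (κ.FS u g (E i) n ζ) ^ 2) +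
        C / √Q * √(∑ i, (1 / 2 : ℝ) ^ lev i) * √(∑ i, ∫ z in Un (E i) n, g z ^ 2)

end Vale.Agent.P112.T
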