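import Vale.Agent.P112.T.ForestP

/-!
# P112, chapter (T): corollaries

* `tN3m` : T3 for families with at most `m` scales per point;
* `tP4_L2` : the `L²` bound of a separated forest with density `δ` in each tree.
-/

open MeasureTheory Set Filter Topology
open scoped ContDiff ENNReal

set_option linter.dupNamespace false

namespace Vale.Agent.P112.T

variable {M : ℕ}

/-- Number of scales of `z` below `j`. -/
noncomputable def cnt (E : ℕ → Set (ℝ × ℝ)) (j : ℕ) (z : ℝ × ℝ) : ℕ := by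
  classical exact ((Finset.range j).filter fun i => z ∈ E i).card

/-- The `r`-th scale of each point. -/
def nth (E : ℕ → Set (ℝ × ℝ)) (r j : ℕ) : Set (ℝ × ℝ) := {z | z ∈ E j ∧ cnt E j z = r}

theorem measurable_cnt {E : ℕ → Set (ℝ × ℝ)} (hE : ∀ j, MeasurableSet (E j)) (j : ℕ) :
    Measurable (cnt E j) := by
  classical
  have : cnt E j = fun z => ∑ i ∈ Finset.range j, (E i).indicator (fun _ => 1) z := by
    ext z
    unfold cnt
    rw [Finset.card_filter]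
    refine Finset.sum_congr rfl fun i _ => ?_
    by_cases h : z ∈ E i <;> simp [h]
  rw [this]
  exact Finset.measurable_fun_sum _ fun i _ => measurable_const.indicator (hE i)

theorem cnt_lt {E : ℕ → Set (ℝ × ℝ)} {j j' : ℕ} (h : j < j') {z : ℝ × ℝ} (hz : z ∈ E j) :
    cnt E j z < cnt E j' z := by
  classical
  unfold cnt
  apply Finset.card_lt_card
  rw [Finset.ssubset_iff_of_subset]
  · exact ⟨j, by simp [h, hz], by simp⟩
  · intro i hi
    simp only [Finset.mem_filter, Finset.mem_range] at hi ⊢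
    exact ⟨by omega, hi.2⟩

theorem measurableSet_nth {E : ℕ → Set (ℝ × ℝ)} (hE : ∀ j, MeasurableSet (E j)) (r j : ℕ) :
    MeasurableSet (nth E r j) :=
  (hE j).inter (measurable_cnt hE j (measurableSet_singleton r))

theorem nth_disj (E : ℕ → Set (ℝ × ℝ)) (r : ℕ) {i j : ℕ} (h : i ≠ j) :
    Disjoint (nth E r i) (nth E r j) := by
  rw [Set.disjoint_left]
  rintro z ⟨h1, h2⟩ ⟨h3, h4⟩
  rcases lt_or_gt_of_ne h with h' | h'
  · have := cnt_lt h' h1; omega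
  · have := cnt_lt h' h3; omega

theorem sum_nth {E : ℕ → Set (ℝ × ℝ)} {m j : ℕ} {z : ℝ × ℝ} (hm : z ∈ E j → cnt E j z < m)
    (g : ℝ × ℝ → ℝ) : (E j).indicator g z = ∑ r ∈ Finset.range m, (nth E r j).indicator g z := by
  by_cases hz : z ∈ E j
  · rw [indicator_of_mem hz, Finset.sum_eq_single (cnt E j z)]
    · rw [indicator_of_mem]
      exact ⟨hz, rfl⟩
    · intro r _ hr
      rw [indicator_of_notMem]
      exact fun h => hr h.2.symm
    · intro h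
      exact absurd (Finset.mem_range.2 (hm hz)) h
  · rw [indicator_of_notMem hz]
    symm
    apply Finset.sum_eq_zero
    intro r _
    rw [indicator_of_notMem]
    exact fun h => hz h.1

theorem integrable_S_int (κ : Ker M) {u : ℝ × ℝ → ℝ} (hu : Field u) (j : ℕ)
    {g : ℝ × ℝ → ℝ} (hg : Nice g) (ζ : ℝ × ℝ) : Integrable fun z => κ.k j (u z) z ζ * g z := by
  obtain ⟨D, hD, hk⟩ := κ.k_bdd
  have hm : Measurable fun z : ℝ × ℝ => κ.k j (u z) z ζ :=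
    (κ.k_measurable hu.meas j).comp (measurable_id.prodMk measurable_const)
  exact hg.integrable.bdd_mul hm.aestronglyMeasurable (c := D * 2 ^ j)
    (Eventually.of_forall fun z => hk _ _ _ _)

theorem S_sum (κ : Ker M) {u : ℝ × ℝ → ℝ} (hu : Field u) (j : ℕ) {ι : Type} (t : Finset ι)
    {f : ι → ℝ × ℝ → ℝ} (hf : ∀ r ∈ t, Nice (f r)) (ζ : ℝ × ℝ) :
    κ.S u j (fun z => ∑ r ∈ t, f r z) ζ = ∑ r ∈ t, κ.S u j (f r) ζ := by
  unfold Ker.S
  simp_rw [Finset.mul_sum]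
  rw [integral_finsetSum]
  intro r hr
  exact integrable_S_int κ hu j (hf r hr) ζ

theorem FS_nth (κ : Ker M) {u : ℝ × ℝ → ℝ} (hu : Field u) {g : ℝ × ℝ → ℝ} (hg : Nice g)
    {E : ℕ → Set (ℝ × ℝ)} (hE : ∀ j, MeasurableSet (E j)) {m n : ℕ}
    (hm : ∀ j < n, ∀ z ∈ E j, cnt E j z < m) (ζ : ℝ × ℝ) :
    κ.FS u g E n ζ = ∑ r ∈ Finset.range m, κ.FS u g (nth E r) n ζ := by
  unfold Ker.FS
  rw [Finset.sum_comm]
  refine Finset.sum_congr rfl fun j hj => ?_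
  rw [← S_sum κ hu j (Finset.range m) (f := fun r => (nth E r j).indicator g)
    (fun r _ => hg.indicator (measurableSet_nth hE r j))]
  congr 1
  ext z
  exact sum_nth (fun hz => hm j (Finset.mem_range.1 hj) z hz) g

theorem Un_nth_subset (E : ℕ → Set (ℝ × ℝ)) (r n : ℕ) : Un (nth E r) n ⊆ Un E n := by
  rintro z ⟨j, hj, hz⟩
  exact ⟨j, hj, hz.1⟩

theorem DensN.mono {N : ℝ} {u : ℝ × ℝ → ℝ} {E E' : ℕ → Set (ℝ × ℝ)} {n : ℕ} {τ : ℝ} {a : ℕ}
    {δ : ℝ} (h : DensN N u E n τ a δ) (hE : ∀ j, E' j ⊆ E j) : DensN N u E' n τ a δ := by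
  intro j1 hj1 z1 hz1 lam hlam θ c hθ hc i hi
  refine le_trans (measure_mono ?_) (h j1 hj1 z1 (hE j1 hz1) lam hlam θ c hθ hc i hi)
  rintro z ⟨⟨j, hj, hz⟩, h2⟩
  exact ⟨⟨j, hj, hE j hz⟩, h2⟩

/-- **T3**, at most `m` scales per point. -/
theorem tN3m (M a : ℕ) (C0 : ℝ) (hM : a + 2 ≤ M) : ∃ C : ℝ, 0 < C ∧
    ∀ (N : ℝ) (κ : Ker M), κ.Bd N C0 →
    ∀ (τ : ℝ) (u : ℝ × ℝ → ℝ), Field u → ∀ (n m : ℕ) (E : ℕ → Set (ℝ × ℝ)),
    (∀ j, MeasurableSet (E j)) → (∀ j < n, ∀ z ∈ E j, cnt E j z < m) →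
    ∀ δ : ℝ, 0 < δ → DensN N u E n τ a δ →
    ∀ g : ℝ × ℝ → ℝ, Nice g → (∀ z, |g z| ≤ 1) →
      ∫ ζ, (κ.FS u g E n ζ) ^ 2 ≤ C * m ^ 2 * δ * ∫ z in Un E n, |g z| := by
  obtain ⟨C, hC, h⟩ := tN3 M a C0 hM
  refine ⟨C, hC, ?_⟩
  intro N κ hκ τ u hu n m E hE hm δ hδ hD g hg hg1
  have hFn : ∀ r, Nice (κ.FS u g (nth E r) n) := fun r =>
    κ.FS_nice hu hg (measurableSet_nth hE r) n
  calc ∫ ζ, (κ.FS u g E n ζ) ^ 2
      = ∫ ζ, (∑ r ∈ Finset.range m, κ.FS u g (nth E r) n ζ) ^ 2 := by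
        simp_rw [FS_nth κ hu hg hE hm]
    _ ≤ ∫ ζ, m * ∑ r ∈ Finset.range m, (κ.FS u g (nth E r) n ζ) ^ 2 := by
        refine integral_mono (Nice.sum _ fun r _ => hFn r).sq.integrable
          ((Nice.sum _ fun r _ => (hFn r).sq).const_mul _).integrable fun ζ => ?_
        have := sq_sum_le_card_mul_sum_sq (s := Finset.range m)
          (f := fun r => κ.FS u g (nth E r) n ζ)
        simpa using this
    _ = m * ∑ r ∈ Finset.range m, ∫ ζ, (κ.FS u g (nth E r) n ζ) ^ 2 := by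
        rw [integral_const_mul, integral_finsetSum]
        exact fun r _ => (hFn r).sq.integrable
    _ ≤ m * ∑ r ∈ Finset.range m, (C * δ * ∫ z in Un E n, |g z|) := by
        gcongr with r hr
        refine (h N κ hκ τ u hu n (nth E r) (measurableSet_nth hE r)
          (fun i j hij => nth_disj E r hij) δ hδ (hD.mono fun j z hz => hz.1) g hg hg1).trans ?_
        refine mul_le_mul_of_nonneg_left ?_ (by positivity)
        exact setIntegral_mono_set hg.abs.integrable.integrableOn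
          (Eventually.of_forall fun z => abs_nonneg _)
          (LE.le.eventuallyLE (Un_nth_subset E r n))
    _ = C * m ^ 2 * δ * ∫ z in Un E n, |g z| := by
        rw [Finset.sum_const, Finset.card_range, nsmul_eq_mul]
        ring

/-- **The `L²` bound of a separated forest.** -/
theorem tP4_L2 (M : ℕ) (A C0 : ℝ) (hM : 2 ≤ M) (hA : 1 ≤ A) : ∃ C : ℝ, 0 < C ∧
    ∀ (N : ℝ) (κ : Ker M), κ.Bd N C0 →
    ∀ (τ : ℝ) (u : ℝ × ℝ → ℝ), Field u → ∀ (n : ℕ) (ι : Type) [Fintype ι] (s c : ι → ℝ)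
      (lev : ι → ℕ) (m : ι → ℤ) (E : ι → ℕ → Set (ℝ × ℝ)) (W Q : ℝ), 1 ≤ W → 1 ≤ Q →
      ForestP N u τ A W Q n s c lev m E → ∀ δ : ℝ, 0 < δ →
      (∀ i', ∀ j1 < n, ∀ z1 ∈ E i' j1, ∀ i ≤ j1,
        volume {z : ℝ × ℝ | z ∈ Un (E i') n ∧ q τ i z.1 = q τ i z1.1 ∧
          |(z.2 - s i' * z.1) - (z1.2 - s i' * z1.1)| ≤ 1 ∧ |u z - s i'| ≤ 2 * A * 2 ^ i / N} ≤
          ENNReal.ofReal (δ / 2 ^ i)) →
      ∀ g : ℝ × ℝ → ℝ, Nice g → (∀ z, |g z| ≤ 1) →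
        ∫ ζ, (∑ i, κ.FS u g (E i) n ζ) ^ 2 ≤
          C * δ * (∑ i, ∫ z in Un (E i) n, g z ^ 2) +
          C * W / √Q * √(∑ i, (1 / 2 : ℝ) ^ lev i) * √(∑ i, ∫ z in Un (E i) n, g z ^ 2) := by
  obtain ⟨C2, hC2, h2⟩ := tN2 M A C0 hA
  obtain ⟨C4, hC4, h4⟩ := tP4 M A C0 hM hA
  refine ⟨C2 + C4, by positivity, ?_⟩
  intro N κ hκ τ u hu n ι _ s c lev m E W Q hW hQ hF δ hδ hd g hg hg1
  refine (h4 N κ hκ τ u hu n ι s c lev m E W Q hW hQ hF g hg hg1).trans ?_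
  have h0 : 0 ≤ ∑ i, ∫ z in Un (E i) n, g z ^ 2 :=
    Finset.sum_nonneg fun i _ => integral_nonneg fun z => sq_nonneg _
  refine add_le_add ?_ ?_
  · calc ∑ i, ∫ ζ, (κ.FS u g (E i) n ζ) ^ 2 ≤ ∑ i, C2 * δ * ∫ z in Un (E i) n, g z ^ 2 :=
          Finset.sum_le_sum fun i _ => h2 N κ hκ τ u hu n (E i) (hF.meas i) (s i) (hF.slope i)
            (hF.conv i) δ hδ (hd i) g hg
      _ = C2 * δ * ∑ i, ∫ z in Un (E i) n, g z ^ 2 := by rw [Finset.mul_sum]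
      _ ≤ _ := by gcongr; linarith
  · gcongr
    linarith

end Vale.Agent.P112.T
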