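import Vale.Agent.P112.T.Defs

/-!
# P112, chapter (T): basic facts (measurability, integrability, supports, Fubini)
-/

open MeasureTheory Set Filter Topology
open scoped ContDiff

set_option linter.dupNamespace false

namespace Vale.Agent.P112.T

variable {M : ℕ}

theorem Ker.psi_continuous (κ : Ker M) : Continuous κ.psi :=
  κ.smoothΦ.continuous_iteratedDeriv M (by exact_mod_cast le_top)

theorem Ker.K_continuous (κ : Ker M) : Continuous κ.K := κ.smoothK.continuous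

theorem Ker.psi_zero (κ : Ker M) {t : ℝ} (ht : 1 < |t|) : κ.psi t = 0 := by
  have h : κ.Φ =ᶠ[𝓝 t] fun _ => 0 := by
    have ho : IsOpen {t : ℝ | 1 < |t|} := isOpen_lt continuous_const continuous_abs
    filter_upwards [ho.mem_nhds ht] with x hx using κ.suppΦ x (le_of_lt hx)
  have h2 := h.iteratedDeriv_eq (n := M)
  rw [Ker.psi, h2, iteratedDeriv_const]
  split_ifs <;> rfl

theorem Ker.K_zero (κ : Ker M) {t : ℝ} (ht : 1 / 8 < |t|) : κ.K t = 0 := κ.suppK t ht.le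

theorem bdd_of_cont_supp {f : ℝ → ℝ} (hf : Continuous f) {r : ℝ} (h : ∀ t, r < |t| → f t = 0) :
    ∃ C, 0 < C ∧ ∀ t, |f t| ≤ C := by
  obtain ⟨C, hC⟩ := (isCompact_Icc (a := -r) (b := r)).exists_bound_of_continuousOn
    hf.continuousOn
  refine ⟨max C 1, lt_of_lt_of_le one_pos (le_max_right _ _), fun t => ?_⟩
  by_cases ht : r < |t|
  · rw [h t ht, abs_zero]; positivity
  · have := hC t (by rw [mem_Icc]; exact abs_le.1 (not_lt.1 ht))
    exact le_trans (by simpa using this) (le_max_left _ _)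

/-- A common bound of the kernels. -/
theorem Ker.k_bdd (κ : Ker M) : ∃ C, 0 < C ∧ ∀ (j : ℕ) (v : ℝ) (z ζ : ℝ × ℝ),
    |κ.k j v z ζ| ≤ C * 2 ^ j := by
  obtain ⟨C1, h1, hC1⟩ := bdd_of_cont_supp κ.K_continuous (r := 1 / 8) fun t ht => κ.K_zero ht
  obtain ⟨C2, h2, hC2⟩ := bdd_of_cont_supp κ.psi_continuous (r := 1) fun t ht => κ.psi_zero ht
  refine ⟨C1 * C2, by positivity, fun j v z ζ => ?_⟩
  unfold Ker.k
  rw [abs_mul, abs_mul, abs_of_pos (by positivity : (0 : ℝ) < 2 ^ j)]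
  calc 2 ^ j * |κ.K (2 ^ j * (z.1 - ζ.1))| * |κ.psi (z.2 - ζ.2 - (z.1 - ζ.1) * v)|
      ≤ 2 ^ j * C1 * C2 := by
        gcongr
        · exact hC1 _
        · exact hC2 _
    _ = C1 * C2 * 2 ^ j := by ring

theorem Ker.k_supp (κ : Ker M) {j : ℕ} {v : ℝ} {z ζ : ℝ × ℝ} (h : κ.k j v z ζ ≠ 0) :
    |z.1 - ζ.1| ≤ 1 / (8 * 2 ^ j) ∧ |z.2 - ζ.2 - (z.1 - ζ.1) * v| ≤ 1 := by
  unfold Ker.k at h
  constructor
  · by_contra hc
    apply h
    rw [κ.K_zero (t := 2 ^ j * (z.1 - ζ.1)), mul_zero, zero_mul]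
    rw [abs_mul, abs_of_pos (by positivity : (0 : ℝ) < 2 ^ j)]
    rw [not_le, div_lt_iff₀ (by positivity)] at hc
    linarith
  · by_contra hc
    apply h
    rw [κ.psi_zero (not_le.1 hc), mul_zero]

theorem Ker.k_measurable (κ : Ker M) {u : ℝ × ℝ → ℝ} (hu : Measurable u) (j : ℕ) :
    Measurable fun p : (ℝ × ℝ) × (ℝ × ℝ) => κ.k j (u p.1) p.1 p.2 := by
  unfold Ker.k
  have h1 : Measurable fun p : (ℝ × ℝ) × (ℝ × ℝ) => 2 ^ j * (p.1.1 - p.2.1) := by fun_prop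
  have h2 : Measurable fun p : (ℝ × ℝ) × (ℝ × ℝ) =>
      p.1.2 - p.2.2 - (p.1.1 - p.2.1) * u p.1 := by
    have : Measurable fun p : (ℝ × ℝ) × (ℝ × ℝ) => u p.1 := hu.comp measurable_fst
    fun_prop
  exact (measurable_const.mul (κ.K_continuous.measurable.comp h1)).mul
    (κ.psi_continuous.measurable.comp h2)

theorem Ker.k_continuous (κ : Ker M) (j : ℕ) (v : ℝ) (z : ℝ × ℝ) :
    Continuous fun ζ : ℝ × ℝ => κ.k j v z ζ := by
  unfold Ker.k
  have h1 := κ.K_continuous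
  have h2 := κ.psi_continuous
  fun_prop

/-! ### Nice functions -/

theorem Nice.integrable {g : ℝ × ℝ → ℝ} (hg : Nice g) : Integrable g := by
  obtain ⟨C, hC⟩ := hg.bdd
  obtain ⟨r, hr⟩ := hg.supp
  have hK : IsCompact (Icc (-r) r ×ˢ Icc (-r) r : Set (ℝ × ℝ)) := isCompact_Icc.prod isCompact_Icc
  have h1 : IntegrableOn g (Icc (-r) r ×ˢ Icc (-r) r) := by
    apply Measure.integrableOn_of_bounded (M := C) hK.measure_lt_top.ne
    · exact hg.meas.aestronglyMeasurable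
    · exact Eventually.of_forall fun z => by simpa using hC z
  refine (integrableOn_iff_integrable_of_support_subset ?_).1 h1
  intro z hz
  by_contra hc
  apply hz
  apply hr
  by_contra hn
  push Not at hn
  exact hc ⟨mem_Icc.2 (abs_le.1 hn.1.le), mem_Icc.2 (abs_le.1 hn.2.le)⟩

theorem Nice.indicator {g : ℝ × ℝ → ℝ} (hg : Nice g) {E : Set (ℝ × ℝ)} (hE : MeasurableSet E) :
    Nice (E.indicator g) := by
  obtain ⟨C, hC⟩ := hg.bdd
  obtain ⟨r, hr⟩ := hg.supp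
  refine ⟨hg.meas.indicator hE, ⟨C, fun z => ?_⟩, ⟨r, fun z hz => ?_⟩⟩
  · by_cases h : z ∈ E
    · rw [indicator_of_mem h]; exact hC z
    · rw [indicator_of_notMem h, abs_zero]; exact (abs_nonneg _).trans (hC z)
  · by_cases h : z ∈ E
    · rw [indicator_of_mem h]; exact hr z hz
    · rw [indicator_of_notMem h]

theorem Nice.zero : Nice fun _ => 0 :=
  ⟨measurable_const, ⟨0, fun _ => by simp⟩, ⟨0, fun _ _ => rfl⟩⟩

theorem Nice.add {f g : ℝ × ℝ → ℝ} (hf : Nice f) (hg : Nice g) : Nice fun z => f z + g z := by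
  obtain ⟨C, hC⟩ := hf.bdd
  obtain ⟨r, hr⟩ := hf.supp
  obtain ⟨C', hC'⟩ := hg.bdd
  obtain ⟨r', hr'⟩ := hg.supp
  refine ⟨hf.meas.add hg.meas, ⟨C + C', fun z => (abs_add_le _ _).trans (add_le_add (hC z) (hC' z))⟩,
    ⟨max r r', fun z hz => ?_⟩⟩
  have h1 : f z = 0 := hr z (hz.imp (le_trans (le_max_left _ _)) (le_trans (le_max_left _ _)))
  have h2 : g z = 0 := hr' z (hz.imp (le_trans (le_max_right _ _)) (le_trans (le_max_right _ _)))
  rw [h1, h2, add_zero]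

theorem Nice.mul {f g : ℝ × ℝ → ℝ} (hf : Nice f) (hg : Nice g) : Nice fun z => f z * g z := by
  obtain ⟨C, hC⟩ := hf.bdd
  obtain ⟨r, hr⟩ := hf.supp
  obtain ⟨C', hC'⟩ := hg.bdd
  refine ⟨hf.meas.mul hg.meas, ⟨C * C', fun z => ?_⟩, ⟨r, fun z hz => ?_⟩⟩
  · rw [abs_mul]
    exact mul_le_mul (hC z) (hC' z) (abs_nonneg _) ((abs_nonneg _).trans (hC z))
  · rw [hr z hz, zero_mul]

theorem Nice.abs {g : ℝ × ℝ → ℝ} (hg : Nice g) : Nice fun z => |g z| := by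
  obtain ⟨C, hC⟩ := hg.bdd
  obtain ⟨r, hr⟩ := hg.supp
  exact ⟨hg.meas.abs, ⟨C, fun z => by rw [abs_abs]; exact hC z⟩,
    ⟨r, fun z hz => by rw [hr z hz, abs_zero]⟩⟩

theorem Nice.const_mul {g : ℝ × ℝ → ℝ} (hg : Nice g) (c : ℝ) : Nice fun z => c * g z := by
  obtain ⟨C, hC⟩ := hg.bdd
  obtain ⟨r, hr⟩ := hg.supp
  exact ⟨hg.meas.const_mul c, ⟨|c| * C, fun z => by rw [abs_mul]; gcongr; exact hC z⟩,
    ⟨r, fun z hz => by rw [hr z hz, mul_zero]⟩⟩

theorem Nice.sum {ι : Type*} (s : Finset ι) {f : ι → ℝ × ℝ → ℝ} (hf : ∀ i ∈ s, Nice (f i)) :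
    Nice fun z => ∑ i ∈ s, f i z := by
  classical
  induction s using Finset.induction_on with
  | empty => simpa using Nice.zero
  | insert a s ha ih =>
    have := (hf a (Finset.mem_insert_self _ _)).add
      (ih fun i hi => hf i (Finset.mem_insert_of_mem hi))
    simpa [Finset.sum_insert ha] using this

theorem Nice.sq {g : ℝ × ℝ → ℝ} (hg : Nice g) : Nice fun z => g z ^ 2 := by
  simpa [pow_two] using hg.mul hg

/-! ### The adjoint operators -/

/-- The joint integrand. -/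
theorem Ker.integrable_k (κ : Ker M) {u : ℝ × ℝ → ℝ} (hu : Field u) (j : ℕ) {g : ℝ × ℝ → ℝ}
    (hg : Nice g) : Integrable (fun p : (ℝ × ℝ) × (ℝ × ℝ) => κ.k j (u p.1) p.1 p.2 * g p.1)
      (volume.prod volume) := by
  obtain ⟨C, hC⟩ := hg.bdd
  obtain ⟨r, hr⟩ := hg.supp
  obtain ⟨D, hD, hk⟩ := κ.k_bdd
  obtain ⟨U, hU⟩ := hu.bdd
  have hU0 : 0 ≤ U := (abs_nonneg _).trans (hU 0)
  set R : ℝ := |r| + 1 + U with hR
  have hR0 : 0 < R := by positivity
  have hr' : r ≤ R := by rw [hR]; linarith [le_abs_self r, abs_nonneg r]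
  have hK : IsCompact ((Icc (-R) R ×ˢ Icc (-R) R) ×ˢ (Icc (-(R + 1)) (R + 1) ×ˢ
      Icc (-(R + 1 + U)) (R + 1 + U)) : Set ((ℝ × ℝ) × (ℝ × ℝ))) :=
    (isCompact_Icc.prod isCompact_Icc).prod (isCompact_Icc.prod isCompact_Icc)
  have h1 : IntegrableOn (fun p : (ℝ × ℝ) × (ℝ × ℝ) => κ.k j (u p.1) p.1 p.2 * g p.1)
      ((Icc (-R) R ×ˢ Icc (-R) R) ×ˢ (Icc (-(R + 1)) (R + 1) ×ˢ
      Icc (-(R + 1 + U)) (R + 1 + U))) (volume.prod volume) := by
    apply Measure.integrableOn_of_bounded (M := D * 2 ^ j * C) hK.measure_lt_top.ne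
    · exact ((κ.k_measurable hu.meas j).mul (hg.meas.comp measurable_fst)).aestronglyMeasurable
    · refine Eventually.of_forall fun p => ?_
      rw [Real.norm_eq_abs, abs_mul]
      exact mul_le_mul (hk _ _ _ _) (hC _) (abs_nonneg _) (by positivity)
  refine (integrableOn_iff_integrable_of_support_subset ?_).1 h1
  intro p hp
  have hk0 : κ.k j (u p.1) p.1 p.2 ≠ 0 := left_ne_zero_of_mul hp
  have hg0 : g p.1 ≠ 0 := right_ne_zero_of_mul hp
  obtain ⟨hx, hy⟩ := κ.k_supp hk0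
  have hx' : |p.1.1 - p.2.1| ≤ 1 := by
    refine hx.trans ?_
    rw [div_le_one (by positivity)]
    have : (1 : ℝ) ≤ 2 ^ j := one_le_pow₀ (by norm_num)
    linarith
  have hz : |p.1.1| ≤ R ∧ |p.1.2| ≤ R := by
    by_contra hc
    apply hg0
    apply hr
    by_contra hn
    push Not at hn
    exact hc ⟨hn.1.le.trans hr', hn.2.le.trans hr'⟩
  have hxu : |(p.1.1 - p.2.1) * u p.1| ≤ U := by
    rw [abs_mul]
    calc |p.1.1 - p.2.1| * |u p.1| ≤ 1 * U := by gcongr; exact hU _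
      _ = U := one_mul U
  obtain ⟨a1, a2⟩ := abs_le.1 hz.1
  obtain ⟨b1, b2⟩ := abs_le.1 hz.2
  obtain ⟨c1, c2⟩ := abs_le.1 hx'
  obtain ⟨d1, d2⟩ := abs_le.1 hy
  obtain ⟨e1, e2⟩ := abs_le.1 hxu
  refine ⟨⟨⟨a1, a2⟩, ⟨b1, b2⟩⟩, ⟨⟨by linarith, by linarith⟩, ⟨by linarith, by linarith⟩⟩⟩

theorem Ker.S_nice (κ : Ker M) {u : ℝ × ℝ → ℝ} (hu : Field u) (j : ℕ) {g : ℝ × ℝ → ℝ}
    (hg : Nice g) : Nice (κ.S u j g) := by
  obtain ⟨r, hr⟩ := hg.supp
  obtain ⟨D, hD, hk⟩ := κ.k_bdd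
  obtain ⟨U, hU⟩ := hu.bdd
  have hU0 : 0 ≤ U := (abs_nonneg _).trans (hU 0)
  refine ⟨?_, ⟨D * 2 ^ j * ∫ z, |g z|, fun ζ => ?_⟩, ⟨|r| + 2 + U, fun ζ hζ => ?_⟩⟩
  · have h : StronglyMeasurable fun p : (ℝ × ℝ) × (ℝ × ℝ) => κ.k j (u p.2) p.2 p.1 * g p.2 :=
      (((κ.k_measurable hu.meas j).comp measurable_swap).mul
        (hg.meas.comp measurable_snd)).stronglyMeasurable
    exact h.integral_prod_right'.measurable
  · unfold Ker.S
    calc |∫ z, κ.k j (u z) z ζ * g z| ≤ ∫ z, D * 2 ^ j * |g z| := by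
          rw [← Real.norm_eq_abs]
          refine norm_integral_le_of_norm_le (hg.abs.integrable.const_mul _) ?_
          refine Eventually.of_forall fun z => ?_
          rw [Real.norm_eq_abs, abs_mul]
          gcongr
          exact hk _ _ _ _
      _ = D * 2 ^ j * ∫ z, |g z| := integral_const_mul _ _
  · unfold Ker.S
    rw [integral_eq_zero_of_ae]
    refine Eventually.of_forall fun z => ?_
    by_contra hne
    have hk0 : κ.k j (u z) z ζ ≠ 0 := left_ne_zero_of_mul hne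
    have hg0 : g z ≠ 0 := right_ne_zero_of_mul hne
    obtain ⟨hx, hy⟩ := κ.k_supp hk0
    have hx' : |z.1 - ζ.1| ≤ 1 := by
      refine hx.trans ?_
      rw [div_le_one (by positivity)]
      have : (1 : ℝ) ≤ 2 ^ j := one_le_pow₀ (by norm_num)
      linarith
    have hz : |z.1| < r ∧ |z.2| < r := by
      by_contra hc
      apply hg0
      apply hr
      by_contra hn
      push Not at hn
      exact hc hn
    have hxu : |(z.1 - ζ.1) * u z| ≤ U := by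
      rw [abs_mul]
      calc |z.1 - ζ.1| * |u z| ≤ 1 * U := by gcongr; exact hU _
        _ = U := one_mul U
    obtain ⟨a1, a2⟩ := abs_lt.1 hz.1
    obtain ⟨b1, b2⟩ := abs_lt.1 hz.2
    obtain ⟨c1, c2⟩ := abs_le.1 hx'
    obtain ⟨d1, d2⟩ := abs_le.1 hy
    obtain ⟨e1, e2⟩ := abs_le.1 hxu
    have hra := le_abs_self r
    rcases hζ with h | h
    · have : |ζ.1| < |r| + 2 + U := abs_lt.2 ⟨by linarith, by linarith⟩
      linarith
    · have : |ζ.2| < |r| + 2 + U := abs_lt.2 ⟨by linarith, by linarith⟩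
      linarith

/-- Fubini: `S_j` is the adjoint of `T_j`. -/
theorem Ker.integral_S_mul (κ : Ker M) {u : ℝ × ℝ → ℝ} (hu : Field u) (j : ℕ)
    {g f : ℝ × ℝ → ℝ} (hg : Nice g) (hf : Nice f) :
    ∫ ζ, κ.S u j g ζ * f ζ = ∫ z, g z * ∫ ζ, κ.k j (u z) z ζ * f ζ := by
  have hint : Integrable (fun p : (ℝ × ℝ) × (ℝ × ℝ) => κ.k j (u p.1) p.1 p.2 * g p.1 * f p.2)
      (volume.prod volume) := by
    obtain ⟨C, hC⟩ := hf.bdd
    refine (κ.integrable_k hu j hg).mul_bdd (c := C) ?_ ?_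
    · exact (hf.meas.comp measurable_snd).aestronglyMeasurable
    · exact Eventually.of_forall fun p => by simpa using hC p.2
  have h1 : ∀ ζ, κ.S u j g ζ * f ζ = ∫ z, κ.k j (u z) z ζ * g z * f ζ := fun ζ => by
    unfold Ker.S
    rw [← integral_mul_const]
  have h2 : ∀ z, g z * ∫ ζ, κ.k j (u z) z ζ * f ζ = ∫ ζ, κ.k j (u z) z ζ * g z * f ζ := fun z => by
    rw [← integral_const_mul]
    congr 1
    ext ζ
    ring
  simp_rw [h1, h2]
  exact (integral_integral_swap hint).symm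

theorem Ker.integral_S_mul' (κ : Ker M) {u : ℝ × ℝ → ℝ} (hu : Field u) (j : ℕ)
    {g f : ℝ × ℝ → ℝ} (hg : Nice g) (hf : Nice f) :
    ∫ ζ, κ.S u j g ζ * f ζ = ∫ z, g z * κ.T u j f z := κ.integral_S_mul hu j hg hf

theorem Ker.FS_nice (κ : Ker M) {u : ℝ × ℝ → ℝ} (hu : Field u) {g : ℝ × ℝ → ℝ} (hg : Nice g)
    {E : ℕ → Set (ℝ × ℝ)} (hE : ∀ j, MeasurableSet (E j)) (n : ℕ) : Nice (κ.FS u g E n) :=
  Nice.sum _ fun j _ => κ.S_nice hu j (hg.indicator (hE j))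

theorem measurableSet_Un {E : ℕ → Set (ℝ × ℝ)} (hE : ∀ j, MeasurableSet (E j)) (n : ℕ) :
    MeasurableSet (Un E n) := by
  have : Un E n = ⋃ j ∈ Finset.range n, E j := by
    ext z; simp [Un]
  rw [this]
  exact Finset.measurableSet_biUnion _ fun j _ => hE j

theorem integral_indicator_mul {E : Set (ℝ × ℝ)} (hE : MeasurableSet E) (g f : ℝ × ℝ → ℝ) :
    ∫ z, E.indicator g z * f z = ∫ z in E, g z * f z := by
  rw [← integral_indicator hE]
  congr 1
  ext z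
  by_cases h : z ∈ E
  · simp [h]
  · simp [h]

end Vale.Agent.P112.T
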