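import Vale.Agent.P112.T.Defs

/-!
# P112, chapter (T), version with the frequency parameter `N ≥ 1`

After the reduction [NBR] to bands of relative width `1 / H` everything is rescaled so that the
tubes have height `1` and the band function `ψ` has frequency `N` (`N = H`); slopes are resolved
up to `2 ^ j / N` at length `2 ^ (-j)`. For `N = 1` this is `T/Defs.lean`. All constants are
uniform in `N` and in the kernels with the same bounds.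
-/

open MeasureTheory Set
open scoped ContDiff

set_option linter.dupNamespace false

namespace Vale.Agent.P112.T

variable {M : ℕ}

/-- The kernel `κ` has frequency `N`, with constant `C0`:
e.g. `Φ t = N ^ (-M) * φ t * cos (N * t)`, `φ` a bump function. -/
structure Ker.Bd (κ : Ker M) (N C0 : ℝ) : Prop where
  one_le : 1 ≤ N
  Φ_bd : ∀ a ≤ 2 * M + 2, ∀ t, |iteratedDeriv a κ.Φ t| ≤ C0 * N ^ a / N ^ M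
  K_bd : ∀ a ≤ 2 * M + 2, ∀ t, |iteratedDeriv a κ.K t| ≤ C0

/-- T1, owner helper601. Theorem to prove: `∀ M C0, StN1 M C0` (the Fubini identity is the one
of `StT1`). -/
def StN1 (M : ℕ) (C0 : ℝ) : Prop := ∃ C : ℝ, 0 < C ∧ ∀ (N : ℝ) (κ : Ker M), κ.Bd N C0 →
  ∀ j j' : ℕ, j' ≤ j → ∀ (v v' : ℝ) (z z' : ℝ × ℝ),
    |κ.kap j j' v v' z z'| ≤ C * 2 ^ j' / (1 + N * |v - v'| / 2 ^ j) ^ M ∧
    (κ.kap j j' v v' z z' ≠ 0 → |z.1 - z'.1| ≤ 1 / 2 ^ j' ∧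
      |z.2 - z'.2 - (z.1 - z'.1) * v'| ≤ 2 + |v - v'| / 2 ^ j)

/-- T2, owners helper724 / helper580. Theorem to prove: `∀ M A C0, 1 ≤ A → StN2 M A C0`. -/
def StN2 (M : ℕ) (A C0 : ℝ) : Prop := ∃ C : ℝ, 0 < C ∧ ∀ (N : ℝ) (κ : Ker M), κ.Bd N C0 →
  ∀ (τ : ℝ) (u : ℝ × ℝ → ℝ), Field u → ∀ (n : ℕ) (E : ℕ → Set (ℝ × ℝ)),
    (∀ j, MeasurableSet (E j)) → ∀ s : ℝ,
    (∀ j < n, ∀ z ∈ E j, |u z - s| ≤ A * 2 ^ j / N) →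
    (∀ z, ∀ i j k : ℕ, i ≤ j → j ≤ k → k < n → z ∈ E i → z ∈ E k → z ∈ E j) →
    ∀ δ : ℝ, 0 < δ →
    (∀ j1 < n, ∀ z1 ∈ E j1, ∀ i ≤ j1,
      volume {z : ℝ × ℝ | z ∈ Un E n ∧ q τ i z.1 = q τ i z1.1 ∧
        |(z.2 - s * z.1) - (z1.2 - s * z1.1)| ≤ 1 ∧ |u z - s| ≤ 2 * A * 2 ^ i / N} ≤
        ENNReal.ofReal (δ / 2 ^ i)) →
    ∀ g : ℝ × ℝ → ℝ, Nice g →
      ∫ ζ, (κ.FS u g E n ζ) ^ 2 ≤ C * δ * ∫ z in Un E n, g z ^ 2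

/-- The density hypothesis (nested form: free slope `θ` and free line near `z1`). -/
def DensN (N : ℝ) (u : ℝ × ℝ → ℝ) (E : ℕ → Set (ℝ × ℝ)) (n : ℕ) (τ : ℝ) (a : ℕ) (δ : ℝ) : Prop :=
  ∀ j1 < n, ∀ z1 ∈ E j1, ∀ lam : ℝ, 1 ≤ lam → ∀ θ c : ℝ, |θ - u z1| ≤ lam * 2 ^ j1 / N →
    |z1.2 - c - θ * z1.1| ≤ lam → ∀ i ≤ j1,
    volume {z : ℝ × ℝ | z ∈ Un E n ∧ q τ i z.1 = q τ i z1.1 ∧
      |z.2 - c - θ * z.1| ≤ lam ∧ |u z - θ| ≤ lam * 2 ^ i / N} ≤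
      ENNReal.ofReal (lam ^ a * δ / 2 ^ i)

/-- T3, owner helper8. Theorem to prove: `∀ M a C0, a + 2 ≤ M → StN3 M a C0`. -/
def StN3 (M a : ℕ) (C0 : ℝ) : Prop := ∃ C : ℝ, 0 < C ∧ ∀ (N : ℝ) (κ : Ker M), κ.Bd N C0 →
  ∀ (τ : ℝ) (u : ℝ × ℝ → ℝ), Field u → ∀ (n : ℕ) (E : ℕ → Set (ℝ × ℝ)),
    (∀ j, MeasurableSet (E j)) → (∀ i j : ℕ, i ≠ j → Disjoint (E i) (E j)) →
    ∀ δ : ℝ, 0 < δ → DensN N u E n τ a δ →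
    ∀ g : ℝ × ℝ → ℝ, Nice g → (∀ z, |g z| ≤ 1) →
      ∫ ζ, (κ.FS u g E n ζ) ^ 2 ≤ C * δ * ∫ z in Un E n, |g z|

/-- Average along the line of slope `s` only. -/
noncomputable def AvL (s B : ℝ) (j : ℕ) (h : ℝ × ℝ → ℝ) (ζ : ℝ × ℝ) : ℝ :=
  2 ^ j * ∫ x in {x : ℝ | |x - ζ.1| ≤ B / 2 ^ j}, h (x, ζ.2 + s * (x - ζ.1))

/-- T4(a), adjoint Cotlar, owner helper964. Theorem to prove: `∀ M A C0, 1 ≤ A → StN4a M A C0`. -/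
def StN4a (M : ℕ) (A C0 : ℝ) : Prop := ∃ C B : ℝ, 0 < C ∧ 1 ≤ B ∧
  ∀ (N : ℝ) (κ : Ker M), κ.Bd N C0 →
  ∀ (u : ℝ × ℝ → ℝ), Field u → ∀ (n : ℕ) (E : ℕ → Set (ℝ × ℝ)),
    (∀ j, MeasurableSet (E j)) → ∀ s : ℝ,
    (∀ j < n, ∀ z ∈ E j, |u z - s| ≤ A * 2 ^ j / N) →
    ∀ g : ℝ × ℝ → ℝ, Nice g → ∀ j < n, ∀ ζ : ℝ × ℝ,
      |κ.FS u g E (j + 1) ζ| ≤ C * (AvL s B j (fun z => |κ.FS u g E n z|) ζ +
        Av s B j ((Un E n).indicator fun z => |g z|) ζ +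
        ∑ i ∈ Finset.range (j + 1), 2 ^ i / 2 ^ j * Av s B i ((E i).indicator fun z => |g z|) ζ)

/-- T4(b), integration by parts, owner helper522.
Theorem to prove: `∀ M A C0, 2 ≤ M → 1 ≤ A → StN4b M A C0`. -/
def StN4b (M : ℕ) (A C0 : ℝ) : Prop := ∃ C B : ℝ, 0 < C ∧ 1 ≤ B ∧
  ∀ (N : ℝ) (κ : Ker M), κ.Bd N C0 →
  ∀ (u : ℝ × ℝ → ℝ), Field u → ∀ (n : ℕ) (E : ℕ → Set (ℝ × ℝ)),
    (∀ j, MeasurableSet (E j)) → ∀ s : ℝ,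
    (∀ j < n, ∀ z ∈ E j, |u z - s| ≤ A * 2 ^ j / N) →
    ∀ g : ℝ × ℝ → ℝ, Nice g → ∀ j < n, ∀ m ≤ j + 1, ∀ (v : ℝ) (z : ℝ × ℝ),
      2 ^ j ≤ N * |v - s| →
      |∫ ζ, κ.k j v z ζ * κ.FS u g E m ζ| ≤
        C * (2 ^ j / (N * |v - s|)) ^ 2 * Av v 2 j (fun ζ => |κ.FS u g E m ζ| +
          ∑ i ∈ Finset.range m,
            2 ^ i / 2 ^ j * Av s B i ((E i).indicator fun z => |g z|) ζ) z

/-- A separated forest. `W` = half width of the trees (`W = A` for trees of height `1`; `W = H`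
for fat trees made of thin points), `B` = half width of the tops. -/
structure ForestN {ι : Type} (N : ℝ) (u : ℝ × ℝ → ℝ) (τ A W B Q : ℝ) (n : ℕ) (s c : ι → ℝ)
    (lev : ι → ℕ) (m : ι → ℤ) (E : ι → ℕ → Set (ℝ × ℝ)) : Prop where
  meas : ∀ i j, MeasurableSet (E i j)
  slope : ∀ i, ∀ j < n, ∀ z ∈ E i j, |u z - s i| ≤ A * 2 ^ j / N
  scale : ∀ i, ∀ j < n, ∀ z ∈ E i j, lev i ≤ j
  line : ∀ i, ∀ j < n, ∀ z ∈ E i j, |z.2 - c i - s i * z.1| ≤ W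
  inside : ∀ i, ∀ j < n, ∀ z ∈ E i j, ∀ x : ℝ, |x - z.1| ≤ 1 / (8 * 2 ^ j) → q τ (lev i) x = m i
  conv : ∀ i, ∀ z, ∀ j k l : ℕ, j ≤ k → k ≤ l → l < n → z ∈ E i j → z ∈ E i l → z ∈ E i k
  disj : ∀ i i', i ≠ i' → ∀ j, Disjoint (E i j) (E i' j)
  sep : ∀ i i', i ≠ i' → ∀ j < n, lev i' ≤ j → ∀ z ∈ E i j,
    (∃ ζ ∈ Top τ (lev i') (m i') (s i') (c i') B, |ζ.1 - z.1| ≤ 1 / (8 * 2 ^ j) ∧
      |ζ.2 - z.2 - (ζ.1 - z.1) * u z| ≤ 1) → Q * 2 ^ j / N ≤ |u z - s i'|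

/-- T4, owner helper3. Theorem to prove: `∀ M A C0, 2 ≤ M → 1 ≤ A → StN4 M A C0`. -/
def StN4 (M : ℕ) (A C0 : ℝ) : Prop := ∃ C : ℝ, 0 < C ∧ ∀ (N : ℝ) (κ : Ker M), κ.Bd N C0 →
  ∀ (τ : ℝ) (u : ℝ × ℝ → ℝ), Field u → ∀ (n : ℕ) (ι : Type) [Fintype ι] (s c : ι → ℝ)
    (lev : ι → ℕ) (m : ι → ℤ) (E : ι → ℕ → Set (ℝ × ℝ)) (W B Q : ℝ), 1 ≤ W → W + 2 * A + 1 ≤ B →
    1 ≤ Q → ForestN N u τ A W B Q n s c lev m E →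
    ∀ g : ℝ × ℝ → ℝ, Nice g → (∀ z, |g z| ≤ 1) →
      ∫ ζ, (∑ i, κ.FS u g (E i) n ζ) ^ 2 ≤
        (∑ i, ∫ ζ, (κ.FS u g (E i) n ζ) ^ 2) +
        C * B / √Q * √(∑ i, (1 / 2 : ℝ) ^ lev i) * √(∑ i, ∫ z in Un (E i) n, g z ^ 2)

end Vale.Agent.P112.T
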