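import Vale.Agent.P112.T.DefsN
import Vale.Agent.P112.T.Basic

/-!
# P112, chapter (T), assembly of T4: supports, pairings
-/

open MeasureTheory Set Filter Topology
open scoped ContDiff ENNReal

set_option linter.dupNamespace false

namespace Vale.Agent.P112.T

variable {M : ℕ}

/-- Points of `E i j` whose tube meets the top `i'`. -/
def PS {ι : Type} (u : ℝ × ℝ → ℝ) (τ B : ℝ) (s c : ι → ℝ) (lev : ι → ℕ) (m : ι → ℤ)
    (E : ι → ℕ → Set (ℝ × ℝ)) (i' i : ι) (j : ℕ) : Set (ℝ × ℝ) :=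
  {z | z ∈ E i j ∧ ∃ ζ ∈ Top τ (lev i') (m i') (s i') (c i') B, |ζ.1 - z.1| ≤ 1 / (8 * 2 ^ j) ∧
      |ζ.2 - z.2 - (ζ.1 - z.1) * u z| ≤ 1}

section

variable {ι : Type} {N τ A W B Q C0 : ℝ} {n : ℕ} {s c : ι → ℝ} {lev : ι → ℕ}
  {m : ι → ℤ} {E : ι → ℕ → Set (ℝ × ℝ)} {u : ℝ × ℝ → ℝ}

theorem FS_eq_zero (κ : Ker M) (hF : ForestN N u τ A W B Q n s c lev m E) (g : ℝ × ℝ → ℝ) (i : ι)
    {k : ℕ} (hk : k ≤ lev i) (hkn : k ≤ n) (ζ : ℝ × ℝ) : κ.FS u g (E i) k ζ = 0 := by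
  unfold Ker.FS
  apply Finset.sum_eq_zero
  intro j hj
  have hjk := Finset.mem_range.1 hj
  have he : E i j = ∅ := by
    ext z
    simp only [mem_empty_iff_false, iff_false]
    intro hz
    have := hF.scale i j (by omega) z hz
    omega
  simp [Ker.S, he]

theorem FS_supp (κ : Ker M) (hN : 1 ≤ N) (hA : 0 ≤ A) (hB : W + 2 * A + 1 ≤ B)
    (hF : ForestN N u τ A W B Q n s c lev m E)
    (g : ℝ × ℝ → ℝ) (i : ι) {k : ℕ} (hkn : k ≤ n) {ζ : ℝ × ℝ} (h : κ.FS u g (E i) k ζ ≠ 0) :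
    ζ ∈ Top τ (lev i) (m i) (s i) (c i) B := by
  unfold Ker.FS at h
  obtain ⟨j, hj, hne⟩ := Finset.exists_ne_zero_of_sum_ne_zero h
  have hjk := Finset.mem_range.1 hj
  unfold Ker.S at hne
  have : ∃ z, κ.k j (u z) z ζ * (E i j).indicator g z ≠ 0 := by
    by_contra hc
    push Not at hc
    exact hne (by simp [hc])
  obtain ⟨z, hz⟩ := this
  have hk0 := left_ne_zero_of_mul hz
  have hzE : z ∈ E i j := by
    by_contra hc
    exact (right_ne_zero_of_mul hz) (indicator_of_notMem hc _)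
  obtain ⟨hx, hy⟩ := κ.k_supp hk0
  have hjn : j < n := by omega
  have hl := hF.line i j hjn z hzE
  have hs := hF.slope i j hjn z hzE
  refine ⟨hF.inside i j hjn z hzE ζ.1 (by rw [abs_sub_comm]; exact hx), ?_⟩
  have hN0 : 0 < N := by linarith
  have h2 : (0 : ℝ) < 2 ^ j := by positivity
  have h3 : |(z.1 - ζ.1) * (u z - s i)| ≤ A := by
    rw [abs_mul]
    calc |z.1 - ζ.1| * |u z - s i| ≤ 1 / (8 * 2 ^ j) * (A * 2 ^ j / N) := by gcongr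
      _ = A / 8 / N := by field_simp
      _ ≤ A / 8 := div_le_self (by positivity) hN
      _ ≤ A := by linarith
  have he : ζ.2 - c i - s i * ζ.1 = (z.2 - c i - s i * z.1) -
      (z.2 - ζ.2 - (z.1 - ζ.1) * u z) - (z.1 - ζ.1) * (u z - s i) := by ring
  rw [he]
  obtain ⟨a1, a2⟩ := abs_le.1 hl
  obtain ⟨b1, b2⟩ := abs_le.1 hy
  obtain ⟨c1, c2⟩ := abs_le.1 h3
  exact abs_le.2 ⟨by linarith, by linarith⟩

/-- The pairing of the kernel with another tree vanishes off `PS`. -/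
theorem pair_eq_zero (κ : Ker M) (hN : 1 ≤ N) (hA : 0 ≤ A) (hB : W + 2 * A + 1 ≤ B)
    (hF : ForestN N u τ A W B Q n s c lev m E)
    (g : ℝ × ℝ → ℝ) (i i' : ι) {j k : ℕ} (hkn : k ≤ n) {z : ℝ × ℝ} (hz : z ∈ E i j)
    (hP : z ∉ PS u τ B s c lev m E i' i j) :
    ∫ ζ, κ.k j (u z) z ζ * κ.FS u g (E i') k ζ = 0 := by
  rw [integral_eq_zero_of_ae]
  refine Eventually.of_forall fun ζ => ?_
  by_contra hne
  have hk0 := left_ne_zero_of_mul hne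
  have hf0 := right_ne_zero_of_mul hne
  have ht := FS_supp κ hN hA hB hF g i' hkn hf0
  obtain ⟨hx, hy⟩ := κ.k_supp hk0
  apply hP
  refine ⟨hz, ζ, ht, by rw [abs_sub_comm]; exact hx, ?_⟩
  have : ζ.2 - z.2 - (ζ.1 - z.1) * u z = -(z.2 - ζ.2 - (z.1 - ζ.1) * u z) := by ring
  rw [this, abs_neg]
  exact hy

/-! ### Averages -/

theorem Av_mono {s B B' : ℝ} {j : ℕ} {h h' : ℝ × ℝ → ℝ} (hh : Nice h') (h0 : ∀ z, 0 ≤ h z)
    (hm : Measurable h) (hle : ∀ z, h z ≤ h' z) (hB : B ≤ B') (ζ : ℝ × ℝ) :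
    Av s B j h ζ ≤ Av s B' j h' ζ := by
  unfold Av
  gcongr
  have hi : Integrable h := by
    refine hh.integrable.mono hm.aestronglyMeasurable (Eventually.of_forall fun z => ?_)
    rw [Real.norm_eq_abs, Real.norm_eq_abs, abs_of_nonneg (h0 z)]
    exact (hle z).trans (le_abs_self _)
  calc ∫ z in {z : ℝ × ℝ | |z.1 - ζ.1| ≤ B / 2 ^ j ∧ |(z.2 - s * z.1) - (ζ.2 - s * ζ.1)| ≤ B}, h z
      ≤ ∫ z in {z : ℝ × ℝ | |z.1 - ζ.1| ≤ B' / 2 ^ j ∧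
          |(z.2 - s * z.1) - (ζ.2 - s * ζ.1)| ≤ B'}, h z := by
        apply setIntegral_mono_set hi.integrableOn
        · exact Eventually.of_forall h0
        · apply Eventually.of_forall
          rintro z ⟨h1, h2⟩
          exact ⟨h1.trans (by gcongr), h2.trans hB⟩
    _ ≤ _ := setIntegral_mono hi.integrableOn hh.integrable.integrableOn hle

theorem Av_nonneg {s B : ℝ} {j : ℕ} {h : ℝ × ℝ → ℝ} (h0 : ∀ z, 0 ≤ h z) (ζ : ℝ × ℝ) :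
    0 ≤ Av s B j h ζ := by
  unfold Av
  exact mul_nonneg (by positivity) (integral_nonneg h0)

theorem AvL_nonneg {s B : ℝ} {j : ℕ} {h : ℝ × ℝ → ℝ} (h0 : ∀ z, 0 ≤ h z) (ζ : ℝ × ℝ) :
    0 ≤ AvL s B j h ζ := by
  unfold AvL
  exact mul_nonneg (by positivity) (integral_nonneg fun _ => h0 _)

end

/-- `G0` dominates all averages of `h` of slope `s` and constant `B`. -/
structure Dom (s B : ℝ) (h : ℝ × ℝ → ℝ) (G0 : ℝ × ℝ → ℝ≥0∞) : Prop where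
  meas : Measurable G0
  avL : ∀ j z, ENNReal.ofReal (AvL s B j (fun w => |h w|) z) ≤ G0 z
  av : ∀ j z, ENNReal.ofReal (Av s B j (fun w => |h w|) z) ≤ G0 z

/-- Maximal function bound (from Hardy-Littlewood along the slope and in `y`). -/
def StDom (B : ℝ) : Prop := ∃ C : ℝ, 0 < C ∧ ∀ (s : ℝ) (h : ℝ × ℝ → ℝ), Nice h →
  ∃ G0 : ℝ × ℝ → ℝ≥0∞, Dom s B h G0 ∧
    ∫⁻ z, G0 z ^ 2 ≤ ENNReal.ofReal C * ∫⁻ z, ENNReal.ofReal (h z ^ 2)

/-- Tube of half length `2 / 2 ^ j`, half width `2` around `z` with slope `v`. -/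
def Tu (v : ℝ) (j : ℕ) (z : ℝ × ℝ) : Set (ℝ × ℝ) :=
  {ζ | |ζ.1 - z.1| ≤ 2 / 2 ^ j ∧ |(ζ.2 - v * ζ.1) - (z.2 - v * z.1)| ≤ 2}

/-- The sum (ii). Theorem to prove: `∀ A, 1 ≤ A → StIi A`. -/
def StIi (A : ℝ) : Prop := ∃ C : ℝ, 0 < C ∧ ∀ (N τ : ℝ) (u : ℝ × ℝ → ℝ), 1 ≤ N → Field u →
  ∀ (n : ℕ) (ι : Type) [Fintype ι] [DecidableEq ι] (s c : ι → ℝ)
    (lev : ι → ℕ) (m : ι → ℤ) (E : ι → ℕ → Set (ℝ × ℝ)) (W B Q : ℝ), 1 ≤ W →
    W + 2 * A + 1 ≤ B → 1 ≤ Q →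
    ForestN N u τ A W B Q n s c lev m E → ∀ (i' : ι) (G : ℝ × ℝ → ℝ≥0∞), Measurable G →
    ∑ i ∈ Finset.univ.erase i', ∑ j ∈ (Finset.range n).filter (fun j => lev i' ≤ j),
      ∫⁻ z in PS u τ B s c lev m E i' i j,
        ENNReal.ofReal ((2 ^ j / (N * |u z - s i'|)) ^ 2) *
          (ENNReal.ofReal (2 ^ j) * ∫⁻ ζ in Tu (u z) j z, G ζ) ≤
    ENNReal.ofReal (C * B / √Q * √((1 / 2 : ℝ) ^ lev i')) * (∫⁻ z, G z ^ 2) ^ (1 / 2 : ℝ)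

end Vale.Agent.P112.T
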