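import Vale.Agent.P112.T.ForestC
import Vale.Agent.P112.H601.T1N
import Vale.Agent.P112.H724.Fin
import Vale.Agent.P112.H8.T3N
import Vale.Agent.P112.H964.StT4a
import Vale.Agent.P112.H522.T4bN
import Vale.Agent.P112.H526.T4lit

/-!
# P112, chapter (T): the unconditional theorems

`tN1 … tN4` : the statements of `T/DefsN.lean`, proved.
-/

namespace Vale.Agent.P112.T

/-- (T1) the pair kernel bound -/
theorem tN1 (M : ℕ) (C0 : ℝ) : StN1 M C0 := H601.stN1 M C0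

/-- (T2) single tree -/
theorem tN2 (M : ℕ) (A C0 : ℝ) (hA : 1 ≤ A) : StN2 M A C0 := Vale.Agent.P112.TreeT2.stN2 M C0 hA

/-- (T3) antichains -/
theorem tN3 (M a : ℕ) (C0 : ℝ) (hM : a + 2 ≤ M) : StN3 M a C0 := H8.stn3 M a C0 hM (tN1 M C0)

/-- (T4) forests -/
theorem tN4 (M : ℕ) (A C0 : ℝ) (hM : 2 ≤ M) (hA : 1 ≤ A) : StN4 M A C0 :=
  stN4 A C0 hA (tN2 M A C0 hA) (H964.stN4a M A C0 hA) (H522.stN4b M A C0 hM hA)
    (fun B hB => H526.stDom B hB) (H526.stIi A (by linarith))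

end Vale.Agent.P112.T
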