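import Vale.Agent.P112.T.Mass
import Vale.Agent.P112.G.R2

/-!
# P112: `StMass` of `G/R2.lean`
-/

open MeasureTheory Set
open scoped ENNReal

set_option linter.dupNamespace false

namespace Vale.Agent.P112.T

variable {M : ℕ}

/-- **[MASS], literal form.** -/
theorem stMass (hM : 3 ≤ M) (κ : Ker M) : R2.StMass κ := by
  obtain ⟨C, hC, h⟩ := mass_vol hM κ
  refine ⟨C, hC, ?_⟩
  intro u hu n ν g hg hg1 R hR hsub W hW hw
  exact h u hu n g hg hg1 R hR (fun j z hz => (hsub j hz).1) W hW hw

end Vale.Agent.P112.T
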