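import Vale.Agent.P112.T.Basic
import Vale.Agent.P112.T.DefsN
import Vale.Agent.P112.H967.Dir

/-!
# P112, [CAR] : families of one slope with at most `l` scales per point

`car` : `∫ (∑_j |S_j (g 1_{E j})|)^q ≤ (C A l q²)^q |Un E|` for `|g| ≤ 1`, `|u - s| ≤ A 2^j` on
`E j`, at most `l` scales per point, `q ≥ 2`. No cancellation, only the maximal function.
-/

open MeasureTheory Set Filter Topology
open scoped ContDiff ENNReal

set_option linter.dupNamespace false

namespace Vale.Agent.P112.T.Car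

open Vale.Agent.P112.T Vale.Agent.P112.HL

variable {M : ℕ}

/-- Pointwise bound of the kernel. -/
theorem k_le_of_bd {κ : Ker M} {N C0 : ℝ} (hκ : κ.Bd N C0) (j : ℕ) (v : ℝ) (z ζ : ℝ × ℝ) :
    |κ.k j v z ζ| ≤ C0 ^ 2 * 2 ^ j := by
  have hN : 0 < N := lt_of_lt_of_le one_pos hκ.one_le
  have h1 := hκ.K_bd 0 (by omega) (2 ^ j * (z.1 - ζ.1))
  have h2 := hκ.Φ_bd M (by omega) (z.2 - ζ.2 - (z.1 - ζ.1) * v)
  rw [iteratedDeriv_zero] at h1
  have h3 : C0 * N ^ M / N ^ M = C0 := by field_simp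
  rw [h3] at h2
  have h0 : 0 ≤ C0 := (abs_nonneg _).trans h1
  unfold Ker.k Ker.psi
  rw [abs_mul, abs_mul, abs_of_nonneg (by positivity : (0 : ℝ) ≤ 2 ^ j)]
  calc 2 ^ j * |κ.K (2 ^ j * (z.1 - ζ.1))| * |iteratedDeriv M κ.Φ (z.2 - ζ.2 - (z.1 - ζ.1) * v)|
      ≤ 2 ^ j * C0 * C0 := by gcongr
    _ = C0 ^ 2 * 2 ^ j := by ring

theorem S_enorm_le (κ : Ker M) (u : ℝ × ℝ → ℝ) (j : ℕ) {E : Set (ℝ × ℝ)} (hE : MeasurableSet E)
    {g : ℝ × ℝ → ℝ} (hg1 : ∀ z, |g z| ≤ 1) (ζ : ℝ × ℝ) :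
    ‖κ.S u j (E.indicator g) ζ‖ₑ ≤ ∫⁻ z in E, ‖κ.k j (u z) z ζ‖ₑ := by
  unfold Ker.S
  refine (enorm_integral_le_lintegral_enorm _).trans ?_
  rw [← lintegral_indicator hE]
  refine lintegral_mono fun z => ?_
  by_cases hz : z ∈ E
  · rw [indicator_of_mem hz, indicator_of_mem hz, enorm_mul]
    refine mul_le_of_le_one_right bot_le ?_
    rw [Real.enorm_eq_ofReal_abs, ← ENNReal.ofReal_one]
    exact ENNReal.ofReal_le_ofReal (hg1 z)
  · rw [indicator_of_notMem hz, indicator_of_notMem hz, mul_zero, enorm_zero]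

theorem k_enorm_le {κ : Ker M} {D : ℝ} (hD : ∀ j v z ζ, |κ.k j v z ζ| ≤ D * 2 ^ j) {u : ℝ × ℝ → ℝ}
    {s A : ℝ} (hA : 0 ≤ A) {j : ℕ} {z : ℝ × ℝ} (hz : |u z - s| ≤ A * 2 ^ j) (ζ : ℝ × ℝ) :
    ‖κ.k j (u z) z ζ‖ₑ ≤ ENNReal.ofReal (D * 2 ^ j) *
      (Metric.ball z.1 (1 / (4 * 2 ^ j))).indicator
        (fun t => (Metric.ball (z.2 + s * (t - z.1)) (2 + A)).indicator (fun _ => 1) ζ.2) ζ.1 := by
  by_cases h0 : κ.k j (u z) z ζ = 0
  · simp [h0]
  · obtain ⟨hx, hy⟩ := κ.k_supp h0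
    have h2 : (0 : ℝ) < 2 ^ j := by positivity
    have h3 : ζ.1 ∈ Metric.ball z.1 (1 / (4 * 2 ^ j)) := by
      rw [Metric.mem_ball, Real.dist_eq, abs_sub_comm]
      refine lt_of_le_of_lt hx ?_
      apply one_div_lt_one_div_of_lt (by positivity)
      linarith
    have h4 : ζ.2 ∈ Metric.ball (z.2 + s * (ζ.1 - z.1)) (2 + A) := by
      rw [Metric.mem_ball, Real.dist_eq]
      have e : ζ.2 - (z.2 + s * (ζ.1 - z.1)) = -(z.2 - ζ.2 - (z.1 - ζ.1) * u z) -
          (z.1 - ζ.1) * (u z - s) := by ring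
      rw [e]
      have h5 : |(z.1 - ζ.1) * (u z - s)| ≤ A := by
        rw [abs_mul]
        calc |z.1 - ζ.1| * |u z - s| ≤ 1 / (8 * 2 ^ j) * (A * 2 ^ j) := by gcongr
          _ = A / 8 := by field_simp
          _ ≤ A := by linarith
      calc |-(z.2 - ζ.2 - (z.1 - ζ.1) * u z) - (z.1 - ζ.1) * (u z - s)|
          ≤ |-(z.2 - ζ.2 - (z.1 - ζ.1) * u z)| + |(z.1 - ζ.1) * (u z - s)| := abs_sub _ _
        _ ≤ 1 + A := by rw [abs_neg]; exact add_le_add hy h5
        _ < 2 + A := by linarith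
    rw [indicator_of_mem h3, indicator_of_mem h4, mul_one, Real.enorm_eq_ofReal_abs]
    exact ENNReal.ofReal_le_ofReal (hD _ _ _ _)

/-- One scale against a test function. -/
theorem pair_one {κ : Ker M} {D : ℝ} (hD0 : 0 ≤ D) (hD : ∀ j v z ζ, |κ.k j v z ζ| ≤ D * 2 ^ j)
    {u : ℝ × ℝ → ℝ} (hu : Measurable u) {s A : ℝ} (hA : 0 ≤ A) {j : ℕ} {E : Set (ℝ × ℝ)}
    (hE : MeasurableSet E) (hs : ∀ z ∈ E, |u z - s| ≤ A * 2 ^ j) {g : ℝ × ℝ → ℝ}
    (hg1 : ∀ z, |g z| ≤ 1) {h : ℝ × ℝ → ℝ≥0∞} (hh : Measurable h) :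
    ∫⁻ ζ, ‖κ.S u j (E.indicator g) ζ‖ₑ * h ζ ≤
      ENNReal.ofReal (D * (2 + A)) * ∫⁻ z in E, MV (MS s h) z := by
  have hkm : Measurable fun p : (ℝ × ℝ) × (ℝ × ℝ) => ‖κ.k j (u p.2) p.2 p.1‖ₑ * h p.1 := by
    have h1 : Measurable fun p : (ℝ × ℝ) × (ℝ × ℝ) => κ.k j (u p.1) p.1 p.2 := κ.k_measurable hu j
    have h2 : Measurable fun p : (ℝ × ℝ) × (ℝ × ℝ) => κ.k j (u p.2) p.2 p.1 :=
      h1.comp (measurable_snd.prodMk measurable_fst)
    exact h2.enorm.mul (hh.comp measurable_fst)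
  calc ∫⁻ ζ, ‖κ.S u j (E.indicator g) ζ‖ₑ * h ζ
      ≤ ∫⁻ ζ, ∫⁻ z in E, ‖κ.k j (u z) z ζ‖ₑ * h ζ := by
        refine lintegral_mono fun ζ => ?_
        have h3 : Measurable fun z => ‖κ.k j (u z) z ζ‖ₑ := by
          have h1 : Measurable fun p : (ℝ × ℝ) × (ℝ × ℝ) => κ.k j (u p.1) p.1 p.2 :=
            κ.k_measurable hu j
          exact (h1.comp (measurable_id.prodMk measurable_const)).enorm
        rw [lintegral_mul_const _ h3]
        gcongr
        exact S_enorm_le κ u j hE hg1 ζ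
    _ = ∫⁻ z in E, ∫⁻ ζ, ‖κ.k j (u z) z ζ‖ₑ * h ζ :=
        lintegral_lintegral_swap hkm.aemeasurable
    _ ≤ ∫⁻ z in E, ENNReal.ofReal (D * (2 + A)) * MV (MS s h) z := by
        refine setLIntegral_mono' hE fun z hz => ?_
        have hL : (0 : ℝ) < 1 / (4 * 2 ^ j) := by positivity
        have hw : (0 : ℝ) < 2 + A := by linarith
        have hav := tube_avg s hh (x := z.1) (y := z.2) (x₀ := z.1) (y₀ := z.2)
          (L := 1 / (4 * 2 ^ j)) (w := 2 + A) (Metric.mem_ball_self hL) (by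
            rw [sub_self, mul_zero, add_zero]; exact Metric.mem_ball_self hw)
        rw [ENNReal.div_le_iff (mul_ne_zero (by rw [Ne, ENNReal.ofReal_eq_zero]; linarith)
          (by rw [Ne, ENNReal.ofReal_eq_zero]; linarith))
          (ENNReal.mul_ne_top ENNReal.ofReal_ne_top ENNReal.ofReal_ne_top)] at hav
        have hm : Measurable fun ζ : ℝ × ℝ => ‖κ.k j (u z) z ζ‖ₑ * h ζ := by
          have h1 : Measurable fun p : (ℝ × ℝ) × (ℝ × ℝ) => κ.k j (u p.1) p.1 p.2 :=
            κ.k_measurable hu j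
          exact ((h1.comp (measurable_const.prodMk measurable_id)).enorm).mul hh
        rw [lintegral_iter hm]
        calc ∫⁻ x : ℝ, ∫⁻ y : ℝ, ‖κ.k j (u z) z (x, y)‖ₑ * h (x, y)
            ≤ ∫⁻ x : ℝ, ∫⁻ y : ℝ, ENNReal.ofReal (D * 2 ^ j) *
                ((Metric.ball z.1 (1 / (4 * 2 ^ j))).indicator (fun t =>
                  (Metric.ball (z.2 + s * (t - z.1)) (2 + A)).indicator (fun y => h (t, y)) y)
                  x) := by
              refine lintegral_mono fun x => lintegral_mono fun y => ?_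
              have h5 := k_enorm_le hD hA (hs z hz) (x, y)
              refine (mul_le_mul' h5 le_rfl).trans (le_of_eq ?_)
              by_cases hx : x ∈ Metric.ball z.1 (1 / (4 * 2 ^ j))
              · by_cases hy : y ∈ Metric.ball (z.2 + s * (x - z.1)) (2 + A)
                · simp only [indicator_of_mem hx, indicator_of_mem hy, mul_one]
                · simp only [indicator_of_mem hx, indicator_of_notMem hy, mul_zero, zero_mul]
              · simp only [indicator_of_notMem hx, mul_zero, zero_mul]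
          _ = ENNReal.ofReal (D * 2 ^ j) * ∫⁻ t in Metric.ball z.1 (1 / (4 * 2 ^ j)),
                ∫⁻ y in Metric.ball (z.2 + s * (t - z.1)) (2 + A), h (t, y) := by
              rw [← lintegral_indicator Metric.isOpen_ball.measurableSet,
                ← lintegral_const_mul' _ _ ENNReal.ofReal_ne_top]
              refine lintegral_congr fun x => ?_
              rw [lintegral_const_mul' _ _ ENNReal.ofReal_ne_top]
              congr 1
              by_cases hx : x ∈ Metric.ball z.1 (1 / (4 * 2 ^ j))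
              · simp only [indicator_of_mem hx]
                rw [← lintegral_indicator Metric.isOpen_ball.measurableSet]
              · simp only [indicator_of_notMem hx, lintegral_zero]
          _ ≤ ENNReal.ofReal (D * 2 ^ j) * (MV (MS s h) (z.1, z.2) *
                (ENNReal.ofReal (2 * (1 / (4 * 2 ^ j))) * ENNReal.ofReal (2 * (2 + A)))) := by
              gcongr
          _ = ENNReal.ofReal (D * (2 + A)) * MV (MS s h) z := by
              rw [← ENNReal.ofReal_mul (by positivity), mul_comm (MV (MS s h) (z.1, z.2)),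
                ← mul_assoc, ← ENNReal.ofReal_mul (by positivity)]
              congr 2
              field_simp
              ring
    _ = _ := lintegral_const_mul' _ _ ENNReal.ofReal_ne_top

/-- The constant of the maximal theorem at the exponent dual to `q ≥ 2`. -/
theorem CM_dual {p q : ℝ} (hq : 2 ≤ q) (hpq : p.HolderConjugate q) :
    (CM p * CM p) ^ (1 / p) ≤ ENNReal.ofReal ((16 * q) ^ 2) := by
  have hp1 : 1 < p := hpq.lt
  have hq0 : 0 < q := by linarith
  have e1 : p - 1 = 1 / (q - 1) := by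
    have := hpq.symm.conjugate_eq
    rw [this]
    have : q - 1 ≠ 0 := by linarith
    field_simp
    ring
  have hp2 : p - 1 ≤ 1 := by
    rw [e1, div_le_one (by linarith)]
    linarith
  have h1 : CM p ≤ ENNReal.ofReal (16 * q) := by
    unfold CM
    apply ENNReal.ofReal_le_ofReal
    have h2 : (2 : ℝ) ^ (p - 1) ≤ 2 := by
      calc (2 : ℝ) ^ (p - 1) ≤ 2 ^ (1 : ℝ) := Real.rpow_le_rpow_of_exponent_le (by norm_num) hp2
        _ = 2 := by norm_num
    have h3 : p / (p - 1) = q := by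
      exact hpq.conjugate_eq.symm
    calc 8 * p * 2 ^ (p - 1) / (p - 1) = 8 * (p / (p - 1)) * 2 ^ (p - 1) := by ring
      _ ≤ 8 * q * 2 := by rw [h3]; gcongr
      _ = 16 * q := by ring
  calc (CM p * CM p) ^ (1 / p) ≤ (ENNReal.ofReal (16 * q) * ENNReal.ofReal (16 * q)) ^ (1 / p) := by
        gcongr
    _ = (ENNReal.ofReal ((16 * q) ^ 2)) ^ (1 / p) := by
        rw [← ENNReal.ofReal_mul (by positivity), pow_two]
    _ ≤ (ENNReal.ofReal ((16 * q) ^ 2)) ^ (1 : ℝ) := by
        apply ENNReal.rpow_le_rpow_of_exponent_le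
        · rw [ENNReal.one_le_ofReal]
          have : 1 ≤ 16 * q := by linarith
          exact one_le_pow₀ this
        · rw [div_le_one (by linarith)]
          exact hp1.le
    _ = _ := ENNReal.rpow_one _

open Classical in
/-- Duality step. -/
theorem car_dual {κ : Ker M} {D : ℝ} (hD0 : 0 ≤ D) (hD : ∀ j v z ζ, |κ.k j v z ζ| ≤ D * 2 ^ j)
    {u : ℝ × ℝ → ℝ} (hu : Field u) {s A : ℝ} (hA : 0 ≤ A) {n l : ℕ} {E : ℕ → Set (ℝ × ℝ)}
    (hE : ∀ j, MeasurableSet (E j)) (hs : ∀ j < n, ∀ z ∈ E j, |u z - s| ≤ A * 2 ^ j)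
    (hl : ∀ z, ((Finset.range n).filter fun j => z ∈ E j).card ≤ l)
    {g : ℝ × ℝ → ℝ} (hg : Nice g) (hg1 : ∀ z, |g z| ≤ 1) {p q : ℝ} (hq : 2 ≤ q)
    (hpq : p.HolderConjugate q) :
    ∫⁻ ζ, (∑ j ∈ Finset.range n, ‖κ.S u j ((E j).indicator g) ζ‖ₑ) ^ q ≤
      (ENNReal.ofReal (D * (2 + A)) * l * (CM p * CM p) ^ (1 / p)) ^ q * volume (Un E n) := by
  have hq0 : 0 < q := by linarith
  have hp1 : 1 < p := hpq.lt
  have hp0 : 0 < p := by linarith
  have hSn : ∀ j, Nice (κ.S u j ((E j).indicator g)) := fun j =>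
    κ.S_nice hu j (hg.indicator (hE j))
  set Φ : ℝ × ℝ → ℝ≥0∞ := fun ζ => ∑ j ∈ Finset.range n, ‖κ.S u j ((E j).indicator g) ζ‖ₑ with hΦ
  have hΦm : Measurable Φ := Finset.measurable_fun_sum _ fun j _ => (hSn j).meas.enorm
  set h : ℝ × ℝ → ℝ≥0∞ := fun ζ => Φ ζ ^ (q - 1) with hh
  have hhm : Measurable h := hΦm.pow_const _
  set X : ℝ≥0∞ := ∫⁻ ζ, Φ ζ ^ q with hX
  have hUm := measurableSet_Un hE n
  -- finiteness
  have hXfin : X ≠ ⊤ := by
    set F : ℝ × ℝ → ℝ := fun ζ => ∑ j ∈ Finset.range n, |κ.S u j ((E j).indicator g) ζ| with hF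
    have hFn : Nice F := Nice.sum _ fun j _ => (hSn j).abs
    have hF0 : ∀ ζ, 0 ≤ F ζ := fun ζ => Finset.sum_nonneg fun j _ => abs_nonneg _
    obtain ⟨C, hC⟩ := hFn.bdd
    obtain ⟨r, hr⟩ := hFn.supp
    have hle : ∀ ζ, Φ ζ ^ q ≤ (Icc (-|r|) |r| ×ˢ Icc (-|r|) |r| : Set (ℝ × ℝ)).indicator
        (fun _ => ENNReal.ofReal |C| ^ q) ζ := by
      intro ζ
      have e : Φ ζ = ENNReal.ofReal (F ζ) := by
        simp only [hΦ, hF]
        rw [ENNReal.ofReal_sum_of_nonneg fun j _ => abs_nonneg _]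
        exact Finset.sum_congr rfl fun j _ => Real.enorm_eq_ofReal_abs _
      by_cases hζ : ζ ∈ (Icc (-|r|) |r| ×ˢ Icc (-|r|) |r| : Set (ℝ × ℝ))
      · rw [indicator_of_mem hζ, e]
        gcongr
        exact (le_abs_self _).trans ((hC ζ).trans (le_abs_self _))
      · rw [indicator_of_notMem hζ]
        have : F ζ = 0 := by
          apply hr
          by_contra hcon
          push Not at hcon
          apply hζ
          have h1 := abs_le.1 (hcon.1.le.trans (le_abs_self r))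
          have h2 := abs_le.1 (hcon.2.le.trans (le_abs_self r))
          exact ⟨⟨h1.1, h1.2⟩, ⟨h2.1, h2.2⟩⟩
        rw [e, this, ENNReal.ofReal_zero, ENNReal.zero_rpow_of_pos hq0]
    refine ne_of_lt (lt_of_le_of_lt (lintegral_mono hle) ?_)
    rw [lintegral_indicator (measurableSet_Icc.prod measurableSet_Icc), lintegral_const]
    refine ENNReal.mul_lt_top (ENNReal.rpow_lt_top_of_nonneg hq0.le ENNReal.ofReal_ne_top) ?_
    rw [Measure.restrict_apply_univ]
    exact (isCompact_Icc.prod isCompact_Icc).measure_lt_top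
  -- the pairing
  have hpair : X ≤ ENNReal.ofReal (D * (2 + A)) * (l * ∫⁻ z in Un E n, MV (MS s h) z) := by
    calc X = ∫⁻ ζ, Φ ζ * h ζ := by
          refine lintegral_congr fun ζ => ?_
          simp only [hh]
          by_cases h0 : Φ ζ = 0
          · rw [h0, ENNReal.zero_rpow_of_pos hq0, zero_mul]
          · have hfin : Φ ζ ≠ ⊤ := by
              simp only [hΦ]
              exact ENNReal.sum_ne_top.2 fun j _ => enorm_ne_top
            calc Φ ζ ^ q = Φ ζ ^ (1 + (q - 1)) := by congr 1; ring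
              _ = Φ ζ ^ (1 : ℝ) * Φ ζ ^ (q - 1) := ENNReal.rpow_add _ _ h0 hfin
              _ = Φ ζ * Φ ζ ^ (q - 1) := by rw [ENNReal.rpow_one]
      _ = ∫⁻ ζ, ∑ j ∈ Finset.range n, ‖κ.S u j ((E j).indicator g) ζ‖ₑ * h ζ := by
          refine lintegral_congr fun ζ => ?_
          simp only [hΦ]
          rw [Finset.sum_mul]
      _ = ∑ j ∈ Finset.range n, ∫⁻ ζ, ‖κ.S u j ((E j).indicator g) ζ‖ₑ * h ζ :=
          lintegral_finsetSum _ fun j _ => ((hSn j).meas.enorm).mul hhm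
      _ ≤ ∑ j ∈ Finset.range n, ENNReal.ofReal (D * (2 + A)) * ∫⁻ z in E j, MV (MS s h) z :=
          Finset.sum_le_sum fun j hj => pair_one hD0 hD hu.meas hA (hE j)
            (hs j (Finset.mem_range.1 hj)) hg1 hhm
      _ = ENNReal.ofReal (D * (2 + A)) *
            ∫⁻ z, ∑ j ∈ Finset.range n, (E j).indicator (MV (MS s h)) z := by
          rw [← Finset.mul_sum, lintegral_finsetSum]
          · congr 1
            refine Finset.sum_congr rfl fun j _ => ?_
            rw [lintegral_indicator (hE j)]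
          · exact fun j _ => (measurable_MV (measurable_MS s hhm)).indicator (hE j)
      _ ≤ ENNReal.ofReal (D * (2 + A)) * (l * ∫⁻ z in Un E n, MV (MS s h) z) := by
          gcongr
          rw [← lintegral_const_mul' _ _ (ENNReal.natCast_ne_top l), ← lintegral_indicator hUm]
          refine lintegral_mono fun z => ?_
          by_cases hz : z ∈ Un E n
          · rw [indicator_of_mem hz]
            calc ∑ j ∈ Finset.range n, (E j).indicator (MV (MS s h)) z
                = ∑ j ∈ (Finset.range n).filter (fun j => z ∈ E j), MV (MS s h) z := by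
                  rw [Finset.sum_filter]
                  refine Finset.sum_congr rfl fun j _ => ?_
                  by_cases hj : z ∈ E j <;> simp [hj]
              _ ≤ l * MV (MS s h) z := by
                  rw [Finset.sum_const, nsmul_eq_mul]
                  gcongr
                  exact_mod_cast hl z
          · rw [indicator_of_notMem hz]
            apply le_of_eq
            apply Finset.sum_eq_zero
            intro j hj
            rw [indicator_of_notMem]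
            exact fun hjz => hz ⟨j, Finset.mem_range.1 hj, hjz⟩
  have hhold : ∫⁻ z in Un E n, MV (MS s h) z ≤
      ((CM p * CM p) * X) ^ (1 / p) * volume (Un E n) ^ (1 / q) := by
    have h1 := ENNReal.lintegral_mul_le_Lp_mul_Lq (volume.restrict (Un E n)) hpq
      (f := MV (MS s h)) (g := fun _ => 1) (measurable_MV (measurable_MS s hhm)).aemeasurable
      aemeasurable_const
    simp only [Pi.mul_apply, mul_one, ENNReal.one_rpow, lintegral_const,
      Measure.restrict_apply_univ, one_mul] at h1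
    refine h1.trans ?_
    gcongr
    refine (setLIntegral_le_lintegral _ _).trans ((strong_MVS hp1 s hhm).trans ?_)
    gcongr
    apply le_of_eq
    simp only [hX, hh]
    refine lintegral_congr fun z => ?_
    rw [← ENNReal.rpow_mul]
    congr 1
    have := hpq.sub_one_mul_conj
    have := hpq.symm.sub_one_mul_conj
    linarith
  have hmain : X ≤ (ENNReal.ofReal (D * (2 + A)) * l * (CM p * CM p) ^ (1 / p) *
      volume (Un E n) ^ (1 / q)) * X ^ (1 / p) := by
    refine hpair.trans ?_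
    calc _ ≤ ENNReal.ofReal (D * (2 + A)) * (l * (((CM p * CM p) * X) ^ (1 / p) *
          volume (Un E n) ^ (1 / q))) := by gcongr
      _ = _ := by
          rw [ENNReal.mul_rpow_of_nonneg _ _ (by positivity : 0 ≤ 1 / p)]
          ring
  by_cases hX0 : X = 0
  · rw [hX0]; exact bot_le
  have hexp : 1 / p + 1 / q = 1 := by
    have := hpq.inv_add_inv_eq_one
    simpa [one_div] using this
  have hXq : X ^ (1 / q) ≤ ENNReal.ofReal (D * (2 + A)) * l * (CM p * CM p) ^ (1 / p) *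
      volume (Un E n) ^ (1 / q) := by
    have h2 : X = X ^ (1 / q) * X ^ (1 / p) := by
      rw [← ENNReal.rpow_add _ _ hX0 hXfin, add_comm, hexp, ENNReal.rpow_one]
    have h3 : X ^ (1 / p) ≠ 0 := by
      rw [Ne, ENNReal.rpow_eq_zero_iff]
      push Not
      exact ⟨fun h => absurd h hX0, fun h => absurd h hXfin⟩
    have h4 : X ^ (1 / p) ≠ ⊤ := ENNReal.rpow_ne_top_of_nonneg (by positivity) hXfin
    rw [← ENNReal.mul_le_mul_iff_left h3 h4]
    rw [← h2]
    exact hmain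
  calc X = (X ^ (1 / q)) ^ q := by
        rw [← ENNReal.rpow_mul, one_div, inv_mul_cancel₀ hq0.ne', ENNReal.rpow_one]
    _ ≤ (ENNReal.ofReal (D * (2 + A)) * l * (CM p * CM p) ^ (1 / p) *
          volume (Un E n) ^ (1 / q)) ^ q := by gcongr
    _ = _ := by
        rw [ENNReal.mul_rpow_of_nonneg _ _ hq0.le, ← ENNReal.rpow_mul (volume (Un E n)),
          one_div q, inv_mul_cancel₀ hq0.ne', ENNReal.rpow_one]

open Classical in
/-- **[CAR]** At most `l` scales per point: `L^q` bound with explicit constants. -/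
theorem car {κ : Ker M} {D : ℝ} (hD0 : 0 ≤ D) (hD : ∀ j v z ζ, |κ.k j v z ζ| ≤ D * 2 ^ j)
    {u : ℝ × ℝ → ℝ} (hu : Field u) {s A : ℝ} (hA : 0 ≤ A) {n l : ℕ} {E : ℕ → Set (ℝ × ℝ)}
    (hE : ∀ j, MeasurableSet (E j)) (hs : ∀ j < n, ∀ z ∈ E j, |u z - s| ≤ A * 2 ^ j)
    (hl : ∀ z, ((Finset.range n).filter fun j => z ∈ E j).card ≤ l)
    {g : ℝ × ℝ → ℝ} (hg : Nice g) (hg1 : ∀ z, |g z| ≤ 1) {q : ℝ} (hq : 2 ≤ q) :
    ∫⁻ ζ, (∑ j ∈ Finset.range n, ‖κ.S u j ((E j).indicator g) ζ‖ₑ) ^ q ≤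
      (ENNReal.ofReal (256 * D * (2 + A) * l * q ^ 2)) ^ q * volume (Un E n) := by
  have hpq : (Real.conjExponent q).HolderConjugate q :=
    (Real.HolderConjugate.conjExponent (by linarith : 1 < q)).symm
  refine (car_dual hD0 hD hu hA hE hs hl hg hg1 hq hpq).trans ?_
  gcongr
  calc ENNReal.ofReal (D * (2 + A)) * l *
        (CM (Real.conjExponent q) * CM (Real.conjExponent q)) ^ (1 / Real.conjExponent q)
      ≤ ENNReal.ofReal (D * (2 + A)) * l * ENNReal.ofReal ((16 * q) ^ 2) := by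
        gcongr
        exact CM_dual hq hpq
    _ = ENNReal.ofReal (256 * D * (2 + A) * l * q ^ 2) := by
        rw [← ENNReal.ofReal_natCast l, ← ENNReal.ofReal_mul (by positivity),
          ← ENNReal.ofReal_mul (by positivity)]
        congr 1
        ring

open Classical in
/-- **[CAR]** for kernels with frequency `N` and constant `C0`. -/
theorem carN {κ : Ker M} {N C0 : ℝ} (hκ : κ.Bd N C0)
    {u : ℝ × ℝ → ℝ} (hu : Field u) {s A : ℝ} (hA : 0 ≤ A) {n l : ℕ} {E : ℕ → Set (ℝ × ℝ)}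
    (hE : ∀ j, MeasurableSet (E j)) (hs : ∀ j < n, ∀ z ∈ E j, |u z - s| ≤ A * 2 ^ j)
    (hl : ∀ z, ((Finset.range n).filter fun j => z ∈ E j).card ≤ l)
    {g : ℝ × ℝ → ℝ} (hg : Nice g) (hg1 : ∀ z, |g z| ≤ 1) {q : ℝ} (hq : 2 ≤ q) :
    ∫⁻ ζ, (∑ j ∈ Finset.range n, ‖κ.S u j ((E j).indicator g) ζ‖ₑ) ^ q ≤
      (ENNReal.ofReal (256 * C0 ^ 2 * (2 + A) * l * q ^ 2)) ^ q * volume (Un E n) :=
  car (sq_nonneg C0) (fun j v z ζ => k_le_of_bd hκ j v z ζ) hu hA hE hs hl hg hg1 hq

end Vale.Agent.P112.T.Car
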