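import Vale.Agent.P112.T.ForestA

/-!
# P112, chapter (T), assembly of T4: the bound of one pairing
-/

open MeasureTheory Set Filter Topology
open scoped ContDiff ENNReal

set_option linter.dupNamespace false

namespace Vale.Agent.P112.T

variable {M : ℕ}

theorem ofReal_integral_le {α : Type*} [MeasurableSpace α] {μ : Measure α} (f : α → ℝ) :
    ENNReal.ofReal (∫ x, f x ∂μ) ≤ ∫⁻ x, ENNReal.ofReal (f x) ∂μ := by
  by_cases h : Integrable f μ
  · calc ENNReal.ofReal (∫ x, f x ∂μ) ≤ ENNReal.ofReal (∫ x, max (f x) 0 ∂μ) := by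
          apply ENNReal.ofReal_le_ofReal
          exact integral_mono h h.pos_part fun x => le_max_left _ _
      _ = ∫⁻ x, ENNReal.ofReal (max (f x) 0) ∂μ :=
          ofReal_integral_eq_lintegral_ofReal h.pos_part (Eventually.of_forall fun x =>
            le_max_right _ _)
      _ = ∫⁻ x, ENNReal.ofReal (f x) ∂μ := by
          congr 1
          ext x
          rw [ENNReal.ofReal_max, ENNReal.ofReal_zero]; exact max_eq_left bot_le
  · rw [integral_undef h]; simp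

theorem ofReal_Av_le (v : ℝ) (j : ℕ) (h : ℝ × ℝ → ℝ) (z : ℝ × ℝ) :
    ENNReal.ofReal (Av v 2 j h z) ≤
      ENNReal.ofReal (2 ^ j) * ∫⁻ ζ in Tu v j z, ENNReal.ofReal (h ζ) := by
  unfold Av
  rw [ENNReal.ofReal_mul (by positivity)]
  gcongr
  exact ofReal_integral_le _

theorem sum_two_pow_le (k : ℕ) : ∑ i ∈ Finset.range k, (2 : ℝ) ^ i ≤ 2 ^ k := by
  induction k with
  | zero => simp
  | succ k ih => rw [Finset.sum_range_succ, pow_succ]; linarith

section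

variable {ι : Type} {N τ A W B Q C0 : ℝ} {n : ℕ} {s c : ι → ℝ} {lev : ι → ℕ}
  {m : ι → ℤ} {E : ι → ℕ → Set (ℝ × ℝ)} {u : ℝ × ℝ → ℝ}

/-- The weighted sum of averages of `|g| 1_{E i}` is dominated by a maximal function of
`g 1_Un`. -/
theorem sum_av_le {E : ℕ → Set (ℝ × ℝ)} (hE : ∀ j, MeasurableSet (E j)) {g : ℝ × ℝ → ℝ}
    (hg : Nice g) {n k l : ℕ} (hk : k ≤ n) (hkl : k ≤ l + 1) {s B : ℝ} {G : ℝ × ℝ → ℝ≥0∞}
    (hG : Dom s B ((Un E n).indicator g) G) (ζ : ℝ × ℝ) :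
    ENNReal.ofReal (∑ i ∈ Finset.range k, 2 ^ i / 2 ^ l *
      Av s B i ((E i).indicator fun z => |g z|) ζ) ≤ 2 * G ζ := by
  have hU := measurableSet_Un hE n
  have h1 : ∀ i ∈ Finset.range k, ENNReal.ofReal (2 ^ i / 2 ^ l *
      Av s B i ((E i).indicator fun z => |g z|) ζ) ≤ ENNReal.ofReal (2 ^ i / 2 ^ l) * G ζ := by
    intro i hi
    have hin : i < n := lt_of_lt_of_le (Finset.mem_range.1 hi) hk
    rw [ENNReal.ofReal_mul (by positivity)]
    gcongr
    refine le_trans (ENNReal.ofReal_le_ofReal ?_) (hG.av i ζ)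
    refine Av_mono (hg.indicator hU).abs ?_ (hg.abs.meas.indicator (hE i)) ?_ le_rfl ζ
    · intro z
      exact indicator_nonneg (fun _ _ => abs_nonneg _) z
    · intro z
      by_cases hz : z ∈ E i
      · have hz' : z ∈ Un E n := ⟨i, hin, hz⟩
        simp [hz, hz']
      · rw [indicator_of_notMem hz]; exact abs_nonneg _
  rw [ENNReal.ofReal_sum_of_nonneg]
  · calc ∑ i ∈ Finset.range k, ENNReal.ofReal (2 ^ i / 2 ^ l *
          Av s B i ((E i).indicator fun z => |g z|) ζ)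
        ≤ ∑ i ∈ Finset.range k, ENNReal.ofReal (2 ^ i / 2 ^ l) * G ζ := Finset.sum_le_sum h1
      _ = ENNReal.ofReal (∑ i ∈ Finset.range k, 2 ^ i / 2 ^ l) * G ζ := by
          rw [← Finset.sum_mul, ENNReal.ofReal_sum_of_nonneg fun i _ => by positivity]
      _ ≤ ENNReal.ofReal 2 * G ζ := by
          gcongr
          rw [← Finset.sum_div, div_le_iff₀ (by positivity)]
          calc ∑ i ∈ Finset.range k, (2 : ℝ) ^ i ≤ 2 ^ k := sum_two_pow_le k
            _ ≤ 2 ^ (l + 1) := pow_le_pow_right₀ (by norm_num) hkl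
            _ = 2 * 2 ^ l := by ring
      _ = 2 * G ζ := by norm_num
  · intro i _
    exact mul_nonneg (by positivity)
      (Av_nonneg (fun z => indicator_nonneg (fun _ _ => abs_nonneg _) z) ζ)

/-- Bound of the truncated tree sum by maximal functions. -/
theorem ofReal_FS_le {κ : Ker M} {E : ℕ → Set (ℝ × ℝ)}
    (hE : ∀ j, MeasurableSet (E j)) {s : ℝ} {g : ℝ × ℝ → ℝ} (hg : Nice g)
    {Ca Ba : ℝ} (hCa : 0 < Ca)
    (h4a : ∀ j < n, ∀ ζ : ℝ × ℝ,
      |κ.FS u g E (j + 1) ζ| ≤ Ca * (AvL s Ba j (fun z => |κ.FS u g E n z|) ζ +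
        Av s Ba j ((Un E n).indicator fun z => |g z|) ζ +
        ∑ i ∈ Finset.range (j + 1), 2 ^ i / 2 ^ j * Av s Ba i ((E i).indicator fun z => |g z|) ζ))
    {GF Gg : ℝ × ℝ → ℝ≥0∞} (hGF : Dom s Ba (κ.FS u g E n) GF)
    (hGg : Dom s Ba ((Un E n).indicator g) Gg) {k : ℕ} (hk : k ≤ n) (ζ : ℝ × ℝ) :
    ENNReal.ofReal |κ.FS u g E k ζ| ≤ ENNReal.ofReal Ca * (GF ζ + 3 * Gg ζ) := by
  rcases Nat.eq_zero_or_pos k with h0 | h0
  · subst h0
    simp [Ker.FS]
  · obtain ⟨j, rfl⟩ : ∃ j, k = j + 1 := ⟨k - 1, by omega⟩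
    refine le_trans (ENNReal.ofReal_le_ofReal (h4a j (by omega) ζ)) ?_
    rw [ENNReal.ofReal_mul hCa.le]
    gcongr
    refine le_trans ENNReal.ofReal_add_le ?_
    have h1 := sum_av_le hE hg (k := j + 1) (l := j) hk le_rfl hGg ζ
    have h2 : ENNReal.ofReal (AvL s Ba j (fun z => |κ.FS u g E n z|) ζ +
        Av s Ba j ((Un E n).indicator fun z => |g z|) ζ) ≤ GF ζ + Gg ζ := by
      refine le_trans ENNReal.ofReal_add_le ?_
      refine add_le_add (hGF.avL j ζ) ?_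
      have he : ((Un E n).indicator fun z => |g z|) = fun w => |(Un E n).indicator g w| := by
        ext w
        by_cases hw : w ∈ Un E n <;> simp [hw]
      rw [he]
      exact hGg.av j ζ
    calc _ ≤ (GF ζ + Gg ζ) + 2 * Gg ζ := add_le_add h2 h1
      _ = GF ζ + 3 * Gg ζ := by ring

/-- The integrand of (ii). -/
noncomputable def wt (N : ℝ) (u : ℝ × ℝ → ℝ) (s' : ℝ) (j : ℕ) (G : ℝ × ℝ → ℝ≥0∞) (z : ℝ × ℝ) :
    ℝ≥0∞ :=
  ENNReal.ofReal ((2 ^ j / (N * |u z - s'|)) ^ 2) *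
    (ENNReal.ofReal (2 ^ j) * ∫⁻ ζ in Tu (u z) j z, G ζ)

/-- Pointwise bound of the pairing of a kernel with another tree. -/
theorem pair_pt {κ : Ker M} (hκ : κ.Bd N C0) (hA : 1 ≤ A)
    (hQ : 1 ≤ Q) (hF : ForestN N u τ A W B Q n s c lev m E)
    {g : ℝ × ℝ → ℝ} (hg : Nice g) {i i' : ι} (hii : i ≠ i') {Ca Ba Cb Bb : ℝ} (hCa : 0 < Ca)
    (hCb : 0 < Cb)
    (h4a : ∀ j < n, ∀ ζ : ℝ × ℝ,
      |κ.FS u g (E i') (j + 1) ζ| ≤ Ca * (AvL (s i') Ba j (fun z => |κ.FS u g (E i') n z|) ζ +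
        Av (s i') Ba j ((Un (E i') n).indicator fun z => |g z|) ζ +
        ∑ i ∈ Finset.range (j + 1),
          2 ^ i / 2 ^ j * Av (s i') Ba i ((E i' i).indicator fun z => |g z|) ζ))
    (h4b : ∀ j < n, ∀ m ≤ j + 1, ∀ (v : ℝ) (z : ℝ × ℝ), 2 ^ j ≤ N * |v - s i'| →
      |∫ ζ, κ.k j v z ζ * κ.FS u g (E i') m ζ| ≤
        Cb * (2 ^ j / (N * |v - s i'|)) ^ 2 * Av v 2 j (fun ζ => |κ.FS u g (E i') m ζ| +
          ∑ i ∈ Finset.range m,
            2 ^ i / 2 ^ j * Av (s i') Bb i ((E i' i).indicator fun z => |g z|) ζ) z)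
    {GF Gg Gb : ℝ × ℝ → ℝ≥0∞} (hGF : Dom (s i') Ba (κ.FS u g (E i') n) GF)
    (hGg : Dom (s i') Ba ((Un (E i') n).indicator g) Gg)
    (hGb : Dom (s i') Bb ((Un (E i') n).indicator g) Gb)
    {j k : ℕ} (hj : j < n) (hk : k ≤ j + 1) (hlev : lev i' ≤ j)
    {z : ℝ × ℝ} (hz : z ∈ PS u τ B s c lev m E i' i j) :
    ENNReal.ofReal |∫ ζ, κ.k j (u z) z ζ * κ.FS u g (E i') k ζ| ≤
      ENNReal.ofReal (Cb * (3 * Ca + 2)) * wt N u (s i') j (fun ζ => GF ζ + Gg ζ + Gb ζ) z := by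
  have hN : 1 ≤ N := hκ.one_le
  have hsep := hF.sep i i' hii j hj hlev z hz.1 hz.2
  have h2j : (0 : ℝ) < 2 ^ j := by positivity
  have hv : (2 : ℝ) ^ j ≤ N * |u z - s i'| := by
    rw [div_le_iff₀ (by linarith)] at hsep
    calc (2 : ℝ) ^ j ≤ Q * 2 ^ j := le_mul_of_one_le_left h2j.le hQ
      _ ≤ |u z - s i'| * N := hsep
      _ = N * |u z - s i'| := mul_comm _ _
  have hpt : ∀ ζ, ENNReal.ofReal (|κ.FS u g (E i') k ζ| +
          ∑ i ∈ Finset.range k,
            2 ^ i / 2 ^ j * Av (s i') Bb i ((E i' i).indicator fun z => |g z|) ζ) ≤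
      ENNReal.ofReal (3 * Ca + 2) * (GF ζ + Gg ζ + Gb ζ) := by
    intro ζ
    refine le_trans ENNReal.ofReal_add_le ?_
    have h1 := ofReal_FS_le (n := n) (hF.meas i') hg hCa h4a hGF hGg (k := k) (by omega) ζ
    have h2 := sum_av_le (hF.meas i') hg (k := k) (l := j) (n := n) (by omega) hk hGb ζ
    have h3 : ENNReal.ofReal (3 * Ca + 2) = 3 * ENNReal.ofReal Ca + 2 := by
      rw [ENNReal.ofReal_add (by positivity) (by norm_num), ENNReal.ofReal_mul (by norm_num)]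
      norm_num
    rw [h3]
    calc _ ≤ ENNReal.ofReal Ca * (GF ζ + 3 * Gg ζ) + 2 * Gb ζ := add_le_add h1 h2
      _ ≤ ENNReal.ofReal Ca * (3 * GF ζ + 3 * Gg ζ + 3 * Gb ζ) +
            2 * (GF ζ + Gg ζ + Gb ζ) := by
          refine add_le_add (mul_le_mul_right ?_ _) (mul_le_mul_right ?_ _)
          · calc GF ζ + 3 * Gg ζ ≤ 3 * GF ζ + 3 * Gg ζ := by
                  refine add_le_add ?_ le_rfl
                  exact le_mul_of_one_le_left bot_le (by norm_num)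
              _ ≤ 3 * GF ζ + 3 * Gg ζ + 3 * Gb ζ := le_self_add
          · exact le_add_self
      _ = (3 * ENNReal.ofReal Ca + 2) * (GF ζ + Gg ζ + Gb ζ) := by ring
  refine le_trans (ENNReal.ofReal_le_ofReal (h4b j hj k hk (u z) z hv)) ?_
  rw [ENNReal.ofReal_mul (by positivity), ENNReal.ofReal_mul hCb.le]
  have h5 := ofReal_Av_le (u z) j (fun ζ => |κ.FS u g (E i') k ζ| +
          ∑ i ∈ Finset.range k,
            2 ^ i / 2 ^ j * Av (s i') Bb i ((E i' i).indicator fun z => |g z|) ζ) z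
  have h6 : ∫⁻ ζ in Tu (u z) j z, ENNReal.ofReal (|κ.FS u g (E i') k ζ| +
          ∑ i ∈ Finset.range k,
            2 ^ i / 2 ^ j * Av (s i') Bb i ((E i' i).indicator fun z => |g z|) ζ) ≤
      ENNReal.ofReal (3 * Ca + 2) * ∫⁻ ζ in Tu (u z) j z, (GF ζ + Gg ζ + Gb ζ) := by
    rw [← lintegral_const_mul' _ _ ENNReal.ofReal_ne_top]
    exact lintegral_mono hpt
  unfold wt
  rw [ENNReal.ofReal_mul hCb.le]
  calc _ ≤ ENNReal.ofReal Cb * ENNReal.ofReal ((2 ^ j / (N * |u z - s i'|)) ^ 2) *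
        (ENNReal.ofReal (2 ^ j) * (ENNReal.ofReal (3 * Ca + 2) *
          ∫⁻ ζ in Tu (u z) j z, (GF ζ + Gg ζ + Gb ζ))) := by
        gcongr
        exact h5.trans (by gcongr)
    _ = _ := by ring

/-- Measurability of the pairing. -/
theorem measurable_pair (κ : Ker M) (hu : Field u) (j : ℕ) {f : ℝ × ℝ → ℝ} (hf : Measurable f) :
    Measurable fun z => ∫ ζ, κ.k j (u z) z ζ * f ζ := by
  have h : StronglyMeasurable fun p : (ℝ × ℝ) × (ℝ × ℝ) => κ.k j (u p.1) p.1 p.2 * f p.2 :=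
    ((κ.k_measurable hu.meas j).mul (hf.comp measurable_snd)).stronglyMeasurable
  exact h.integral_prod_right'.measurable

/-- One pairing, integrated. -/
theorem pair_le {κ : Ker M} (hκ : κ.Bd N C0) (hu : Field u) (hA : 1 ≤ A) (hB : W + 2 * A + 1 ≤ B)
    (hQ : 1 ≤ Q) (hF : ForestN N u τ A W B Q n s c lev m E)
    {g : ℝ × ℝ → ℝ} (hg : Nice g) (hg1 : ∀ z, |g z| ≤ 1) {i i' : ι} (hii : i ≠ i')
    {Ca Ba Cb Bb : ℝ} (hCa : 0 < Ca) (hCb : 0 < Cb)
    (h4a : ∀ j < n, ∀ ζ : ℝ × ℝ,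
      |κ.FS u g (E i') (j + 1) ζ| ≤ Ca * (AvL (s i') Ba j (fun z => |κ.FS u g (E i') n z|) ζ +
        Av (s i') Ba j ((Un (E i') n).indicator fun z => |g z|) ζ +
        ∑ i ∈ Finset.range (j + 1),
          2 ^ i / 2 ^ j * Av (s i') Ba i ((E i' i).indicator fun z => |g z|) ζ))
    (h4b : ∀ j < n, ∀ m ≤ j + 1, ∀ (v : ℝ) (z : ℝ × ℝ), 2 ^ j ≤ N * |v - s i'| →
      |∫ ζ, κ.k j v z ζ * κ.FS u g (E i') m ζ| ≤
        Cb * (2 ^ j / (N * |v - s i'|)) ^ 2 * Av v 2 j (fun ζ => |κ.FS u g (E i') m ζ| +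
          ∑ i ∈ Finset.range m,
            2 ^ i / 2 ^ j * Av (s i') Bb i ((E i' i).indicator fun z => |g z|) ζ) z)
    {GF Gg Gb : ℝ × ℝ → ℝ≥0∞} (hGF : Dom (s i') Ba (κ.FS u g (E i') n) GF)
    (hGg : Dom (s i') Ba ((Un (E i') n).indicator g) Gg)
    (hGb : Dom (s i') Bb ((Un (E i') n).indicator g) Gb)
    {j k : ℕ} (hj : j < n) (hk : k ≤ j + 1) :
    ENNReal.ofReal |∫ ζ, κ.S u j ((E i j).indicator g) ζ * κ.FS u g (E i') k ζ| ≤
      if lev i' ≤ j then ENNReal.ofReal (Cb * (3 * Ca + 2)) *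
        ∫⁻ z in PS u τ B s c lev m E i' i j, wt N u (s i') j (fun ζ => GF ζ + Gg ζ + Gb ζ) z
      else 0 := by
  have hFSn : Nice (κ.FS u g (E i') k) := κ.FS_nice hu hg (hF.meas i') k
  split_ifs with hlev
  · rw [κ.integral_S_mul hu j (hg.indicator (hF.meas i j)) hFSn]
    set I : ℝ × ℝ → ℝ := fun z => ∫ ζ, κ.k j (u z) z ζ * κ.FS u g (E i') k ζ with hI
    have hIm : Measurable I := measurable_pair κ hu j hFSn.meas
    have h1 : ENNReal.ofReal |∫ z, (E i j).indicator g z * I z| ≤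
        ∫⁻ z in E i j, ENNReal.ofReal |I z| := by
      rw [integral_indicator_mul (hF.meas i j)]
      calc ENNReal.ofReal |∫ z in E i j, g z * I z|
          ≤ ENNReal.ofReal (∫ z in E i j, |g z * I z|) :=
            ENNReal.ofReal_le_ofReal (abs_integral_le_integral_abs)
        _ ≤ ∫⁻ z in E i j, ENNReal.ofReal |g z * I z| := ofReal_integral_le _
        _ ≤ ∫⁻ z in E i j, ENNReal.ofReal |I z| := by
            apply lintegral_mono
            intro z
            apply ENNReal.ofReal_le_ofReal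
            rw [abs_mul]
            exact mul_le_of_le_one_left (abs_nonneg _) (hg1 z)
    refine h1.trans ?_
    -- restrict to the support of `I`
    set S : Set (ℝ × ℝ) := E i j ∩ {z | I z ≠ 0} with hS
    have hSm : MeasurableSet S := (hF.meas i j).inter
      ((measurableSet_singleton (0 : ℝ)).compl.preimage hIm)
    have hSP : S ⊆ PS u τ B s c lev m E i' i j := by
      rintro z ⟨hz, hne⟩
      by_contra hc
      exact hne (pair_eq_zero κ hκ.one_le (by linarith) hB hF g i i' (by omega) hz hc)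
    have h2 : ∫⁻ z in E i j, ENNReal.ofReal |I z| = ∫⁻ z in S, ENNReal.ofReal |I z| := by
      rw [← lintegral_indicator (hF.meas i j), ← lintegral_indicator hSm]
      congr 1
      ext z
      by_cases hz : z ∈ E i j
      · by_cases h0 : I z = 0
        · have : z ∉ S := fun h => h.2 h0
          simp [hz, this, h0]
        · have : z ∈ S := ⟨hz, h0⟩
          simp [hz, this]
      · have : z ∉ S := fun h => hz h.1
        simp [hz, this]
    rw [h2]
    calc ∫⁻ z in S, ENNReal.ofReal |I z|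
        ≤ ∫⁻ z in S, ENNReal.ofReal (Cb * (3 * Ca + 2)) *
            wt N u (s i') j (fun ζ => GF ζ + Gg ζ + Gb ζ) z := by
          apply setLIntegral_mono' hSm
          intro z hz
          exact pair_pt hκ hA hQ hF hg hii hCa hCb h4a h4b hGF hGg hGb hj hk hlev (hSP hz)
      _ ≤ ∫⁻ z in PS u τ B s c lev m E i' i j, ENNReal.ofReal (Cb * (3 * Ca + 2)) *
            wt N u (s i') j (fun ζ => GF ζ + Gg ζ + Gb ζ) z := lintegral_mono_set hSP
      _ = _ := lintegral_const_mul' _ _ ENNReal.ofReal_ne_top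
  · have : ∀ ζ, κ.S u j ((E i j).indicator g) ζ * κ.FS u g (E i') k ζ = 0 := fun ζ => by
      rw [FS_eq_zero κ hF g i' (by omega) (by omega) ζ, mul_zero]
    simp [this]

end

end Vale.Agent.P112.T
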