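import Vale.Agent.P112.T.ForestB

/-!
# P112, chapter (T), assembly of T4
-/

open MeasureTheory Set Filter Topology
open scoped ContDiff ENNReal

set_option linter.dupNamespace false

namespace Vale.Agent.P112.T

variable {M : ℕ}

/-- Abel summation. -/
theorem abel_mul (a b : ℕ → ℝ) (n : ℕ) :
    (∑ j ∈ Finset.range n, a j) * (∑ j ∈ Finset.range n, b j) =
      ∑ j ∈ Finset.range n, a j * (∑ l ∈ Finset.range (j + 1), b l) +
      ∑ j ∈ Finset.range n, b j * (∑ l ∈ Finset.range j, a l) := by
  induction n with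
  | zero => simp
  | succ n ih =>
    rw [Finset.sum_range_succ a, Finset.sum_range_succ b,
      Finset.sum_range_succ (fun j => a j * _), Finset.sum_range_succ (fun j => b j * _),
      Finset.sum_range_succ b]
    linear_combination ih

theorem sum_erase_eq {ι : Type} [Fintype ι] [DecidableEq ι] (i' : ι) (f : ι → ℝ) :
    ∑ i ∈ Finset.univ.erase i', f i = ∑ i, if i ≠ i' then f i else 0 := by
  rw [← Finset.sum_filter, Finset.filter_ne']

/-- The cell has length `1 / 2 ^ i`. -/
theorem volume_cell_le (τ : ℝ) (i : ℕ) (m : ℤ) :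
    volume {x : ℝ | q τ i x = m} ≤ ENNReal.ofReal (1 / 2 ^ i) := by
  have h : {x : ℝ | q τ i x = m} ⊆ Icc (τ + m / 2 ^ i) (τ + (m + 1) / 2 ^ i) := by
    intro x hx
    have hx' : ⌊2 ^ i * (x - τ)⌋ = m := hx
    rw [Int.floor_eq_iff] at hx'
    have h2 : (0 : ℝ) < 2 ^ i := by positivity
    constructor
    · have : (m : ℝ) / 2 ^ i ≤ x - τ := by rw [div_le_iff₀ h2]; linarith
      linarith
    · have : x - τ ≤ ((m : ℝ) + 1) / 2 ^ i := by rw [le_div_iff₀ h2]; linarith
      linarith
  calc volume {x : ℝ | q τ i x = m} ≤ volume (Icc (τ + m / 2 ^ i) (τ + (m + 1) / 2 ^ i)) :=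
        measure_mono h
    _ = ENNReal.ofReal (1 / 2 ^ i) := by
        rw [Real.volume_Icc]
        congr 1
        ring

theorem measurable_q (τ : ℝ) (i : ℕ) : Measurable (q τ i) := by
  unfold q
  exact Int.measurable_floor.comp (by fun_prop)

/-- Trivial density. -/
theorem volume_box_le (τ : ℝ) (i : ℕ) (m : ℤ) (s b : ℝ) (T : Set (ℝ × ℝ))
    (hT : T ⊆ {z : ℝ × ℝ | q τ i z.1 = m ∧ |(z.2 - s * z.1) - b| ≤ 1}) :
    volume T ≤ ENNReal.ofReal (2 / 2 ^ i) := by
  set R : Set (ℝ × ℝ) := {z : ℝ × ℝ | q τ i z.1 = m ∧ |(z.2 - s * z.1) - b| ≤ 1} with hR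
  have hRm : MeasurableSet R := by
    apply MeasurableSet.inter
    · exact (measurableSet_singleton m).preimage ((measurable_q τ i).comp measurable_fst)
    · have h : Measurable fun z : ℝ × ℝ => |(z.2 - s * z.1) - b| := by fun_prop
      exact measurableSet_le h measurable_const
  calc volume T ≤ volume R := measure_mono hT
    _ = ∫⁻ x, volume (Prod.mk x ⁻¹' R) := by
        rw [Measure.volume_eq_prod, Measure.prod_apply hRm]
    _ ≤ ∫⁻ x, {x : ℝ | q τ i x = m}.indicator (fun _ => 2) x := by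
        apply lintegral_mono
        intro x
        by_cases hx : q τ i x = m
        · have : Prod.mk x ⁻¹' R ⊆ Icc (s * x + b - 1) (s * x + b + 1) := by
            intro y hy
            have h1 : |(y - s * x) - b| ≤ 1 := hy.2
            obtain ⟨h2, h3⟩ := abs_le.1 h1
            exact ⟨by linarith, by linarith⟩
          calc volume (Prod.mk x ⁻¹' R) ≤ volume (Icc (s * x + b - 1) (s * x + b + 1)) :=
                measure_mono this
            _ = 2 := by
                rw [Real.volume_Icc]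
                have : s * x + b + 1 - (s * x + b - 1) = 2 := by ring
                rw [this]; norm_num
            _ = _ := by
                rw [indicator_of_mem]
                exact hx
        · have : Prod.mk x ⁻¹' R = ∅ := by
            ext y
            simp only [mem_preimage, mem_empty_iff_false, iff_false]
            exact fun h => hx h.1
          show volume (Prod.mk x ⁻¹' R) ≤ _
          rw [this]
          simp
    _ = 2 * volume {x : ℝ | q τ i x = m} := by
        have hm : MeasurableSet {x : ℝ | q τ i x = m} :=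
          (measurableSet_singleton m).preimage (measurable_q τ i)
        rw [lintegral_indicator hm]
        simp
    _ ≤ 2 * ENNReal.ofReal (1 / 2 ^ i) := by gcongr; exact volume_cell_le τ i m
    _ = ENNReal.ofReal (2 / 2 ^ i) := by
        rw [show (2 : ℝ) / 2 ^ i = 2 * (1 / 2 ^ i) by ring, ENNReal.ofReal_mul (by norm_num)]
        norm_num

theorem lintegral_sq_indicator {g : ℝ × ℝ → ℝ} (hg : Nice g) {U : Set (ℝ × ℝ)}
    (hU : MeasurableSet U) :
    ∫⁻ z, ENNReal.ofReal ((U.indicator g z) ^ 2) = ENNReal.ofReal (∫ z in U, g z ^ 2) := by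
  rw [← ofReal_integral_eq_lintegral_ofReal (hg.indicator hU).sq.integrable
    (Eventually.of_forall fun z => sq_nonneg _)]
  congr 1
  rw [← integral_indicator hU]
  congr 1
  ext z
  by_cases hz : z ∈ U <;> simp [hz]

/-- **T4.** -/
theorem stN4 (A C0 : ℝ) (hA : 1 ≤ A) (h2 : StN2 M A C0) (h4a : StN4a M A C0)
    (h4b : StN4b M A C0) (hD : ∀ B, 1 ≤ B → StDom B) (hI : StIi A) : StN4 M A C0 := by
  classical
  obtain ⟨C2, hC2, h2⟩ := h2
  obtain ⟨Ca, Ba, hCa, hBa, h4a⟩ := h4a
  obtain ⟨Cb, Bb, hCb, hBb, h4b⟩ := h4b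
  obtain ⟨Da, hDa, hDa'⟩ := hD Ba hBa
  obtain ⟨Db, hDb, hDb'⟩ := hD Bb hBb
  obtain ⟨CI, hCI, hI⟩ := hI
  set KG : ℝ := 3 * (Da * (C2 * 2) + Da + Db) with hKG
  have hKG0 : 0 < KG := by positivity
  set K1 : ℝ := Cb * (3 * Ca + 2) with hK1
  have hK10 : 0 < K1 := by positivity
  refine ⟨2 * K1 * CI * √KG, by positivity, ?_⟩
  intro N κ hκ τ u hu n ι _ s c lev m E W B Q hW hB hQ hF g hg hg1
  have hB0 : 0 < B := by linarith
  have hQ0 : 0 < Q := by linarith
  have hU : ∀ i, MeasurableSet (Un (E i) n) := fun i => measurableSet_Un (hF.meas i) n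
  -- pairing quantities
  set p : ι → ι → ℕ → ℕ → ℝ := fun i i' j k =>
    ∫ ζ, κ.S u j ((E i j).indicator g) ζ * κ.FS u g (E i') k ζ with hp
  set X : ι → ℝ := fun i => ∫ z in Un (E i) n, g z ^ 2 with hX
  have hX0 : ∀ i, 0 ≤ X i := fun i => integral_nonneg fun z => sq_nonneg _
  have hSn : ∀ i j, Nice (κ.S u j ((E i j).indicator g)) := fun i j =>
    κ.S_nice hu j (hg.indicator (hF.meas i j))
  have hFn : ∀ i k, Nice (κ.FS u g (E i) k) := fun i k => κ.FS_nice hu hg (hF.meas i) k
  -- the bound for fixed `i'`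
  have key : ∀ i', ∑ i ∈ Finset.univ.erase i', ∑ j ∈ Finset.range n,
      (|p i i' j (j + 1)| + |p i i' j j|) ≤
      2 * K1 * CI * √KG * B / √Q * (√((1 / 2 : ℝ) ^ lev i') * √(X i')) := by
    intro i'
    -- maximal functions
    obtain ⟨GF, hGF, hGF2⟩ := hDa' (s i') (κ.FS u g (E i') n) (hFn i' n)
    obtain ⟨Gg, hGg, hGg2⟩ := hDa' (s i') ((Un (E i') n).indicator g) (hg.indicator (hU i'))
    obtain ⟨Gb, hGb, hGb2⟩ := hDb' (s i') ((Un (E i') n).indicator g) (hg.indicator (hU i'))
    set G : ℝ × ℝ → ℝ≥0∞ := fun ζ => GF ζ + Gg ζ + Gb ζ with hG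
    have hGm : Measurable G := (hGF.meas.add hGg.meas).add hGb.meas
    have hT2 : ∫ ζ, (κ.FS u g (E i') n ζ) ^ 2 ≤ C2 * 2 * X i' := by
      apply h2 N κ hκ τ u hu n (E i') (hF.meas i') (s i') (hF.slope i') (hF.conv i') 2 (by norm_num)
        _ g hg
      intro j1 _ z1 _ i _
      apply volume_box_le τ i (q τ i z1.1) (s i') (z1.2 - s i' * z1.1)
      rintro z ⟨_, h1, h2, _⟩
      exact ⟨h1, h2⟩
    have hGG : ∫⁻ z, G z ^ 2 ≤ ENNReal.ofReal (KG * X i') := by
      have h3 : ∀ z, G z ^ 2 ≤ 3 * (GF z ^ 2 + Gg z ^ 2 + Gb z ^ 2) := by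
        intro z
        simp only [hG]
        generalize GF z = a
        generalize Gg z = b
        generalize Gb z = d
        have hsq : ∀ x y : ℝ≥0∞, 2 * (x * y) ≤ x ^ 2 + y ^ 2 := by
          intro x y
          rcases le_total x y with h | h
          · obtain ⟨e, rfl⟩ := exists_add_of_le h
            calc 2 * (x * (x + e)) = x ^ 2 + (x ^ 2 + 2 * (x * e)) := by ring
              _ ≤ x ^ 2 + ((x ^ 2 + 2 * (x * e)) + e ^ 2) := add_le_add le_rfl le_self_add
              _ = x ^ 2 + (x + e) ^ 2 := by ring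
          · obtain ⟨e, rfl⟩ := exists_add_of_le h
            calc 2 * ((y + e) * y) = (y ^ 2 + 2 * (y * e)) + y ^ 2 := by ring
              _ ≤ ((y ^ 2 + 2 * (y * e)) + e ^ 2) + y ^ 2 := add_le_add le_self_add le_rfl
              _ = (y + e) ^ 2 + y ^ 2 := by ring
        calc (a + b + d) ^ 2 = a ^ 2 + b ^ 2 + d ^ 2 + (2 * (a * b) + 2 * (a * d) + 2 * (b * d)) := by
              ring
          _ ≤ a ^ 2 + b ^ 2 + d ^ 2 + ((a ^ 2 + b ^ 2) + (a ^ 2 + d ^ 2) + (b ^ 2 + d ^ 2)) :=
              add_le_add le_rfl (add_le_add (add_le_add (hsq _ _) (hsq _ _)) (hsq _ _))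
          _ = 3 * (a ^ 2 + b ^ 2 + d ^ 2) := by ring
      have hF2 : ∫⁻ z, ENNReal.ofReal ((κ.FS u g (E i') n z) ^ 2) ≤
          ENNReal.ofReal (C2 * 2 * X i') := by
        rw [← ofReal_integral_eq_lintegral_ofReal (hFn i' n).sq.integrable
          (Eventually.of_forall fun z => sq_nonneg _)]
        exact ENNReal.ofReal_le_ofReal hT2
      have hg2 := lintegral_sq_indicator hg (hU i')
      calc ∫⁻ z, G z ^ 2 ≤ ∫⁻ z, 3 * (GF z ^ 2 + Gg z ^ 2 + Gb z ^ 2) := lintegral_mono h3
        _ = 3 * ((∫⁻ z, GF z ^ 2) + (∫⁻ z, Gg z ^ 2) + (∫⁻ z, Gb z ^ 2)) := by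
            have e1 : Measurable fun z => GF z ^ 2 := hGF.meas.pow_const 2
            have e2 : Measurable fun z => Gg z ^ 2 := hGg.meas.pow_const 2
            have e3 : Measurable fun z => GF z ^ 2 + Gg z ^ 2 := e1.add e2
            rw [lintegral_const_mul' _ _ (by norm_num), lintegral_add_left e3,
              lintegral_add_left e1]
        _ ≤ 3 * (ENNReal.ofReal Da * ENNReal.ofReal (C2 * 2 * X i') +
              ENNReal.ofReal Da * ENNReal.ofReal (X i') +
              ENNReal.ofReal Db * ENNReal.ofReal (X i')) := by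
            rw [hg2] at hGg2 hGb2
            refine mul_le_mul_right (add_le_add (add_le_add ?_ hGg2) hGb2) _
            exact hGF2.trans (mul_le_mul_right hF2 _)
        _ = ENNReal.ofReal (KG * X i') := by
            rw [← ENNReal.ofReal_mul hDa.le, ← ENNReal.ofReal_mul hDa.le,
              ← ENNReal.ofReal_mul hDb.le, ← ENNReal.ofReal_add (by have := hX0 i'; positivity)
                (by have := hX0 i'; positivity), ← ENNReal.ofReal_add
                (by have := hX0 i'; positivity) (by have := hX0 i'; positivity),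
              show (3 : ℝ≥0∞) = ENNReal.ofReal 3 by norm_num, ← ENNReal.ofReal_mul (by norm_num)]
            congr 1
            rw [hKG]
            ring
    have hGh : (∫⁻ z, G z ^ 2) ^ (1 / 2 : ℝ) ≤ ENNReal.ofReal (√KG * √(X i')) := by
      calc (∫⁻ z, G z ^ 2) ^ (1 / 2 : ℝ) ≤ (ENNReal.ofReal (KG * X i')) ^ (1 / 2 : ℝ) := by
            gcongr
        _ = ENNReal.ofReal (√KG * √(X i')) := by
            rw [ENNReal.ofReal_rpow_of_nonneg (by have := hX0 i'; positivity) (by norm_num),
              ← Real.sqrt_eq_rpow, Real.sqrt_mul hKG0.le]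
    have hIi := hI N τ u hκ.one_le hu n ι s c lev m E W B Q hW hB hQ hF i' G hGm
    -- each pairing
    have hpair : ∀ i ∈ Finset.univ.erase i', ∀ j ∈ Finset.range n, ∀ k ≤ j + 1,
        ENNReal.ofReal |p i i' j k| ≤ if lev i' ≤ j then ENNReal.ofReal K1 *
          ∫⁻ z in PS u τ B s c lev m E i' i j, wt N u (s i') j G z else 0 := by
      intro i hi j hj k hk
      exact pair_le hκ hu hA hB hQ hF hg hg1 (Finset.ne_of_mem_erase hi) hCa hCb
        (h4a N κ hκ u hu n (E i') (hF.meas i') (s i') (hF.slope i') g hg)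
        (h4b N κ hκ u hu n (E i') (hF.meas i') (s i') (hF.slope i') g hg)
        hGF hGg hGb (Finset.mem_range.1 hj) hk
    have h2K : ENNReal.ofReal (2 * K1) = 2 * ENNReal.ofReal K1 := by
      rw [ENNReal.ofReal_mul (p := 2) (q := K1) (by norm_num)]
      norm_num
    have hsum : ENNReal.ofReal (∑ i ∈ Finset.univ.erase i', ∑ j ∈ Finset.range n,
        (|p i i' j (j + 1)| + |p i i' j j|)) ≤
        ENNReal.ofReal (2 * K1) * (ENNReal.ofReal (CI * B / √Q * √((1 / 2 : ℝ) ^ lev i')) *
          (∫⁻ z, G z ^ 2) ^ (1 / 2 : ℝ)) := by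
      calc ENNReal.ofReal (∑ i ∈ Finset.univ.erase i', ∑ j ∈ Finset.range n,
            (|p i i' j (j + 1)| + |p i i' j j|))
          ≤ ∑ i ∈ Finset.univ.erase i', ∑ j ∈ Finset.range n, (2 * (if lev i' ≤ j then
              ENNReal.ofReal K1 *
              ∫⁻ z in PS u τ B s c lev m E i' i j, wt N u (s i') j G z else 0)) := by
            rw [ENNReal.ofReal_sum_of_nonneg fun i _ => Finset.sum_nonneg fun j _ => by positivity]
            refine Finset.sum_le_sum fun i hi => ?_
            rw [ENNReal.ofReal_sum_of_nonneg fun j _ => by positivity]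
            refine Finset.sum_le_sum fun j hj => ?_
            rw [ENNReal.ofReal_add (abs_nonneg _) (abs_nonneg _), two_mul]
            exact add_le_add (hpair i hi j hj _ le_rfl) (hpair i hi j hj _ (Nat.le_succ _))
        _ = ENNReal.ofReal (2 * K1) * ∑ i ∈ Finset.univ.erase i',
              ∑ j ∈ (Finset.range n).filter (fun j => lev i' ≤ j),
                ∫⁻ z in PS u τ B s c lev m E i' i j, wt N u (s i') j G z := by
            rw [Finset.mul_sum]
            refine Finset.sum_congr rfl fun i _ => ?_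
            rw [Finset.sum_filter, Finset.mul_sum]
            refine Finset.sum_congr rfl fun j _ => ?_
            rw [h2K]
            split_ifs
            · ring
            · simp
        _ ≤ _ := by
            gcongr
            exact hIi
    have hfin : ENNReal.ofReal (2 * K1) * (ENNReal.ofReal (CI * B / √Q *
        √((1 / 2 : ℝ) ^ lev i')) * (∫⁻ z, G z ^ 2) ^ (1 / 2 : ℝ)) ≤
        ENNReal.ofReal (2 * K1 * CI * √KG * B / √Q * (√((1 / 2 : ℝ) ^ lev i') * √(X i'))) := by
      calc _ ≤ ENNReal.ofReal (2 * K1) * (ENNReal.ofReal (CI * B / √Q *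
            √((1 / 2 : ℝ) ^ lev i')) * ENNReal.ofReal (√KG * √(X i'))) := by gcongr
        _ = _ := by
            rw [← ENNReal.ofReal_mul (by positivity), ← ENNReal.ofReal_mul (by positivity)]
            congr 1
            ring
    have hle := hsum.trans hfin
    rwa [ENNReal.ofReal_le_ofReal_iff (by positivity)] at hle
  -- expansion of the square
  have hexp : ∀ ζ, (∑ i, κ.FS u g (E i) n ζ) ^ 2 = (∑ i, (κ.FS u g (E i) n ζ) ^ 2) +
      ∑ i', ∑ i ∈ Finset.univ.erase i', κ.FS u g (E i) n ζ * κ.FS u g (E i') n ζ := by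
    intro ζ
    rw [pow_two, Finset.sum_mul_sum, Finset.sum_comm, ← Finset.sum_add_distrib]
    refine Finset.sum_congr rfl fun i' _ => ?_
    rw [← Finset.add_sum_erase _ _ (Finset.mem_univ i'), pow_two]
  have hmul : ∀ i i', ∫ ζ, κ.FS u g (E i) n ζ * κ.FS u g (E i') n ζ =
      (∑ j ∈ Finset.range n, p i i' j (j + 1)) + ∑ j ∈ Finset.range n, p i' i j j := by
    intro i i'
    have h1 : ∀ ζ, κ.FS u g (E i) n ζ * κ.FS u g (E i') n ζ =
        ∑ j ∈ Finset.range n, κ.S u j ((E i j).indicator g) ζ * κ.FS u g (E i') (j + 1) ζ +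
        ∑ j ∈ Finset.range n, κ.S u j ((E i' j).indicator g) ζ * κ.FS u g (E i) j ζ := by
      intro ζ
      unfold Ker.FS
      exact abel_mul _ _ n
    simp_rw [h1]
    rw [integral_add, integral_finsetSum, integral_finsetSum]
    · intro j _
      exact ((hSn i' j).mul (hFn i j)).integrable
    · intro j _
      exact ((hSn i j).mul (hFn i' (j + 1))).integrable
    · exact (Nice.sum _ fun j _ => (hSn i j).mul (hFn i' (j + 1))).integrable
    · exact (Nice.sum _ fun j _ => (hSn i' j).mul (hFn i j)).integrable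
  have hint : ∫ ζ, (∑ i, κ.FS u g (E i) n ζ) ^ 2 = (∑ i, ∫ ζ, (κ.FS u g (E i) n ζ) ^ 2) +
      ∑ i', ∑ i ∈ Finset.univ.erase i', ((∑ j ∈ Finset.range n, p i i' j (j + 1)) +
        ∑ j ∈ Finset.range n, p i' i j j) := by
    simp_rw [hexp]
    rw [integral_add, integral_finsetSum, integral_finsetSum]
    · congr 1
      refine Finset.sum_congr rfl fun i' _ => ?_
      rw [integral_finsetSum]
      · exact Finset.sum_congr rfl fun i _ => hmul i i'
      · intro i _
        exact ((hFn i n).mul (hFn i' n)).integrable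
    · intro i' _
      exact (Nice.sum _ fun i _ => (hFn i n).mul (hFn i' n)).integrable
    · intro i _
      exact (hFn i n).sq.integrable
    · exact (Nice.sum _ fun i _ => (hFn i n).sq).integrable
    · exact (Nice.sum _ fun i' _ => Nice.sum _ fun i _ => (hFn i n).mul (hFn i' n)).integrable
  have hswap : ∑ i', ∑ i ∈ Finset.univ.erase i', ∑ j ∈ Finset.range n, p i' i j j =
      ∑ i', ∑ i ∈ Finset.univ.erase i', ∑ j ∈ Finset.range n, p i i' j j := by
    simp_rw [sum_erase_eq]
    rw [Finset.sum_comm]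
    refine Finset.sum_congr rfl fun i _ => Finset.sum_congr rfl fun i' _ => ?_
    by_cases h : i = i'
    · simp [h]
    · simp [h, Ne.symm h]
  have hbound : ∑ i', ∑ i ∈ Finset.univ.erase i', ((∑ j ∈ Finset.range n, p i i' j (j + 1)) +
        ∑ j ∈ Finset.range n, p i' i j j) ≤
      ∑ i', 2 * K1 * CI * √KG * B / √Q * (√((1 / 2 : ℝ) ^ lev i') * √(X i')) := by
    simp_rw [Finset.sum_add_distrib]
    rw [hswap, ← Finset.sum_add_distrib]
    refine Finset.sum_le_sum fun i' _ => le_trans ?_ (key i')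
    rw [← Finset.sum_add_distrib]
    refine Finset.sum_le_sum fun i _ => ?_
    rw [← Finset.sum_add_distrib]
    exact Finset.sum_le_sum fun j _ => add_le_add (le_abs_self _) (le_abs_self _)
  rw [hint]
  refine add_le_add le_rfl (hbound.trans ?_)
  rw [← Finset.mul_sum, mul_assoc (2 * K1 * CI * √KG * B / √Q)]
  refine mul_le_mul_of_nonneg_left ?_ (by positivity)
  exact Real.sum_sqrt_mul_sqrt_le _ (fun i => by positivity) hX0

end Vale.Agent.P112.T
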