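import Vale.Agent.P112.T.Cor
import Vale.Agent.P112.H967.TqA
import Vale.Agent.P112.H724.Fin

/-!
# P112, chapter (T): sources with few scales per point, bound by the mass
-/

open MeasureTheory Set
open scoped ENNReal

set_option linter.dupNamespace false

namespace Vale.Agent.P112.T

variable {M : ℕ}

/-- The trivial density. -/
theorem densN_four (u : ℝ × ℝ → ℝ) (E : ℕ → Set (ℝ × ℝ)) (n : ℕ) (N : ℝ) :
    DensN N u E n 0 1 4 := by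
  intro j1 _ z1 _ lam hlam θ c _ _ i _
  have h2 : (0 : ℝ) < 2 ^ i := by positivity
  refine (measure_mono ?_).trans ((HL.vol_strip θ z1.1 (1 / 2 ^ i) c lam (by positivity)).trans
    (ENNReal.ofReal_le_ofReal (le_of_eq (by ring))))
  rintro z ⟨_, hq, hl, _⟩
  refine ⟨?_, ?_⟩
  · have h := Int.abs_sub_lt_one_of_floor_eq_floor hq
    have e : 2 ^ i * (z.1 - 0) - 2 ^ i * (z1.1 - 0) = 2 ^ i * (z.1 - z1.1) := by ring
    rw [e, abs_mul, abs_of_pos h2] at h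
    rw [le_div_iff₀ h2]
    linarith
  · have e : z.2 - θ * z.1 - c = z.2 - c - θ * z.1 := by ring
    rw [e]
    exact hl

/-- Few scales: the number of scales below. -/
theorem cnt_lt_of_window {E : ℕ → Set (ℝ × ℝ)} {W : ℝ}
    (h : ∀ z j j', z ∈ E j → z ∈ E j' → (j' : ℝ) ≤ j + W) {j : ℕ} {z : ℝ × ℝ} (hz : z ∈ E j) :
    cnt E j z < ⌊W⌋₊ + 1 := by
  classical
  unfold cnt
  have hsub : ((Finset.range j).filter fun i => z ∈ E i) ⊆ Finset.Ico (j - ⌊W⌋₊) j := by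
    intro i hi
    simp only [Finset.mem_filter, Finset.mem_range, Finset.mem_Ico] at hi ⊢
    refine ⟨?_, hi.1⟩
    have h1 := h z i j hi.2 hz
    have h2 : ((j - i : ℕ) : ℝ) ≤ W := by
      rw [Nat.cast_sub hi.1.le]
      linarith
    have h3 : j - i ≤ ⌊W⌋₊ := Nat.le_floor h2
    omega
  have := Finset.card_le_card hsub
  rw [Nat.card_Ico] at this
  omega

/-- **[MASS].** Few scales per point: bound by the mass. -/
theorem mass (hM : 3 ≤ M) (κ : Ker M) : ∃ C : ℝ, 0 < C ∧ ∀ (u : ℝ × ℝ → ℝ), Field u →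
    ∀ (n : ℕ) (g : ℝ × ℝ → ℝ), Nice g → (∀ z, |g z| ≤ 1) → ∀ (R : ℕ → Set (ℝ × ℝ)),
    (∀ j, MeasurableSet (R j)) → ∀ W : ℝ, 1 ≤ W →
    (∀ z j j', z ∈ R j → z ∈ R j' → (j' : ℝ) ≤ j + W) →
      ∫ ζ, (κ.FS u g R n ζ) ^ 2 ≤ C * W ^ 2 * ∫ z in Un R n, |g z| := by
  obtain ⟨C0, hκ⟩ := TreeT2.exists_Bd κ
  obtain ⟨C, hC, h3⟩ := tN3m M 1 C0 hM
  refine ⟨C * 16, by positivity, ?_⟩
  intro u hu n g hg hg1 R hR W hW hw
  have hm : ∀ j < n, ∀ z ∈ R j, cnt R j z < ⌊W⌋₊ + 1 :=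
    fun j _ z hz => cnt_lt_of_window hw hz
  refine (h3 1 κ hκ 0 u hu n (⌊W⌋₊ + 1) R hR hm 4 (by norm_num) (densN_four u R n 1) g hg
    hg1).trans ?_
  have h0 : 0 ≤ ∫ z in Un R n, |g z| := integral_nonneg fun z => abs_nonneg _
  have h1 : ((⌊W⌋₊ + 1 : ℕ) : ℝ) ≤ 2 * W := by
    push_cast
    have := Nat.floor_le (show (0 : ℝ) ≤ W by linarith)
    linarith
  have h2 : ((⌊W⌋₊ + 1 : ℕ) : ℝ) ^ 2 ≤ (2 * W) ^ 2 := by gcongr
  calc C * ((⌊W⌋₊ + 1 : ℕ) : ℝ) ^ 2 * 4 * ∫ z in Un R n, |g z|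
      ≤ C * (2 * W) ^ 2 * 4 * ∫ z in Un R n, |g z| := by gcongr
    _ = _ := by ring

/-- [MASS] with the volume. -/
theorem mass_vol (hM : 3 ≤ M) (κ : Ker M) : ∃ C : ℝ, 0 < C ∧ ∀ (u : ℝ × ℝ → ℝ), Field u →
    ∀ (n : ℕ) (g : ℝ × ℝ → ℝ), Nice g → (∀ z, |g z| ≤ 1) → ∀ (R : ℕ → Set (ℝ × ℝ)),
    (∀ j, MeasurableSet (R j)) → (∀ j, R j ⊆ {z | g z ≠ 0}) → ∀ W : ℝ, 1 ≤ W →
    (∀ z j j', z ∈ R j → z ∈ R j' → (j' : ℝ) ≤ j + W) →
      ∫ ζ, (κ.FS u g R n ζ) ^ 2 ≤ C * W ^ 2 * (volume (Un R n)).toReal := by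
  obtain ⟨C, hC, h⟩ := mass hM κ
  refine ⟨C, hC, ?_⟩
  intro u hu n g hg hg1 R hR hsub W hW hw
  refine (h u hu n g hg hg1 R hR W hW hw).trans ?_
  have hfin : volume (Un R n) ≠ ∞ := by
    obtain ⟨r, hr⟩ := hg.supp
    refine ne_top_of_le_ne_top ?_ (measure_mono (?_ : Un R n ⊆ Icc (-r) r ×ˢ Icc (-r) r))
    · exact (isCompact_Icc.prod isCompact_Icc).measure_lt_top.ne
    · rintro z ⟨j, _, hz⟩
      have h1 := hsub j hz
      have h2 : ¬ (r ≤ |z.1| ∨ r ≤ |z.2|) := fun h => h1 (hr z h)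
      push Not at h2
      exact ⟨⟨(abs_lt.1 h2.1).1.le, (abs_lt.1 h2.1).2.le⟩, ⟨(abs_lt.1 h2.2).1.le, (abs_lt.1 h2.2).2.le⟩⟩
  have hUn : MeasurableSet (Un R n) := by
    have : Un R n = ⋃ j ∈ Finset.range n, R j := by
      ext z
      simp [Un]
    rw [this]
    exact Finset.measurableSet_biUnion _ fun j _ => hR j
  have h1 : ∫ z in Un R n, |g z| ≤ ∫ z in Un R n, (1 : ℝ) := by
    refine integral_mono hg.abs.integrable.integrableOn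
      (integrableOn_const (hs := hfin)) fun z => hg1 z
  have h2 : ∫ z in Un R n, (1 : ℝ) = (volume (Un R n)).toReal := by
    simp [Measure.real]
  rw [h2] at h1
  gcongr

end Vale.Agent.P112.T
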